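import Crest.Agent.N337.G1.Cube
import Crest.Agent.N337.G1.Core

-- ▼ part N337/G1/Fill
section

/-!
# Row 337, G1: multiscale filling with a fixed exponent (leaf G1-Fill)

`Fm_cov`: if `x0 ∈ Fm` is within `η` of `y`, take its `u0` as centre in `CovAt` (`2ρ+2η ≤ 4η`).
`Fm_card`: double count pairs `(x, y)`, `x ∈ Fm ∩ bl z r`, `y ∈ bl x η ⊆ bl z (r+η)`.
`fill`: model = `Geo.level` / `geo` (Geo/Main.lean), tools `St.fill`, `shell` (`t = tS`, `kS`).
Radii `Rd 0 = 0`, `Rd (i+1) = 3 Rd i + 3 t + 2 σ`, `ρ' 0 = 0`, `ρ' (i+1) = 2 Rd i + 2 t + 2 σ`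
(so `Rd i + t ≤ P.ρ m` for `i ≤ a`).  For `u ∈ U m \ U (m+1)` the `a+1` annuli
`(ρ' i, 2 Rd i + 2 t]` are `2σ` apart, each covering ball meets at most one, so one is free of
`U m`; `ι u` = the least free index.  Level `m`: the remaining bad set `V ⊆ U m`; repeatedly take
`u ∈ V \ U (m+1)` with least `ι u`, fill the cube `bl u (Rd (ι u))` with shell of thickness `t`.
An earlier cube+shell of this level (centre `v`, `ι v ≤ ι u`, `u` outside its cube) misses the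
shell of `u` (`tdist u v ≤ ρ'` or `> 2 Rd + 2t`), so the weights on the shell are `≤ K (m-1)`.
-/

set_option autoImplicit false

namespace Crest.Agent.N337.G1

open Finset Crest.MathPhysics.SpinModel Geo Free

variable {L : ℕ} [NeZero L] {P : Scales} {U : ℕ → Finset (Tor 3 L)}

theorem one_le_tS : 1 ≤ tS :=
  (shell (d := 3) (by norm_num) (Asy.coup_nn 3)).choose_spec.choose_spec.1

namespace Fill

theorem one_le_kS : 1 ≤ kS :=
  (shell (d := 3) (by norm_num) (Asy.coup_nn 3)).choose_spec.choose_spec.2.1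

theorem shell_nn (L : ℕ) [NeZero L] : (∀ x y : Tor 3 L, Jn L x y ≠ 0 → tdist x y ≤ tS) ∧
    ∀ (u : Tor 3 L) (a : ℕ), 2 * (a + tS) < L → ∃ r ∈ bl u (a + tS) \ bl u a, ∀ φ : Tor 3 L → ℝ,
      2 * ∑ x ∈ bl u a, ∑ y ∈ bl u (a + tS) \ bl u a, Jn L x y * (φ r - φ y) ^ 2 ≤
        kS * (((2 * (a + tS) + 1 : ℕ) : ℝ) ^ 3) ^ 3 * ∑ x ∈ bl u (a + tS) \ bl u a,
          ∑ y ∈ bl u (a + tS) \ bl u a, Jn L x y * (φ x - φ y) ^ 2 :=
  (shell (d := 3) (by norm_num) (Asy.coup_nn 3)).choose_spec.choose_spec.2.2 L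

/-- weights before the level `m` -/
noncomputable def K' (P : Scales) (m : ℕ) : ℝ :=
  ∏ l ∈ range m, (1 + kS * (2 * (P.ρ l : ℝ) + 1) ^ 9)

theorem K'_succ (P : Scales) (m : ℕ) :
    K' P (m + 1) = K' P m * (1 + kS * (2 * (P.ρ m : ℝ) + 1) ^ 9) := prod_range_succ _ _

theorem one_le_fac (P : Scales) (l : ℕ) : 1 ≤ 1 + kS * (2 * (P.ρ l : ℝ) + 1) ^ 9 :=
  le_add_of_nonneg_right (mul_nonneg (zero_le_one.trans one_le_kS) (by positivity))

theorem one_le_K' (P : Scales) (m : ℕ) : 1 ≤ K' P m := by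
  induction m with
  | zero => exact le_rfl
  | succ m ih => rw [K'_succ]; exact one_le_mul_of_one_le_of_one_le ih (one_le_fac P m)

theorem K'_le_succ (P : Scales) (m : ℕ) : K' P m ≤ K' P (m + 1) := by
  rw [K'_succ]
  exact le_mul_of_one_le_right (zero_le_one.trans (one_le_K' P m)) (one_le_fac P m)

end Fill

theorem one_le_K (P : Scales) (m : ℕ) : 1 ≤ P.K m := Fill.one_le_K' P (m + 1)

theorem K_mono (P : Scales) : Monotone P.K :=
  monotone_nat_of_le_succ fun m => Fill.K'_le_succ P (m + 1)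

theorem mem_Fm {m : ℕ} {x : Tor 3 L} :
    x ∈ Fm P U m ↔ ∃ u ∈ U m, u ∉ U (m + 1) ∧ tdist u x ≤ P.ρ m := by
  simp [Fm]

omit [NeZero L] in
theorem CovAt.covIn {m : ℕ} (h : CovAt P U m) : CovIn P U m := fun c _ hc => h c hc

theorem not_mem_U' {y : Tor 3 L} (top : y ∉ U P.mt) {m : ℕ} (hm : m ≤ P.mt)
    (h : ∀ l, m ≤ l → l < P.mt → y ∉ Fm P U l) : y ∉ U m := by
  induction hm using Nat.decreasingInduction with
  | self => exact top
  | of_succ k hk ih =>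
    exact fun hy => h k le_rfl hk (mem_Fm.2 ⟨y, hy, ih fun l hl => h l (by omega),
      by rw [tdist_self]; exact Nat.zero_le _⟩)

theorem not_mem_U (top : U P.mt = ∅) {y : Tor 3 L} {m : ℕ} (hm : m ≤ P.mt)
    (h : ∀ l, m ≤ l → l < P.mt → y ∉ Fm P U l) : y ∉ U m :=
  not_mem_U' (by simp [top]) hm h

theorem Fm_cov' (hP : P.Ok L) {m : ℕ} (hm : m < P.mt) (hc : CovIn P U m) (y : Tor 3 L) :
    ∃ F : Finset (Tor 3 L), F.card ≤ P.a m ∧
      ∀ x ∈ Fm P U m, tdist y x ≤ P.η m → ∃ f ∈ F, tdist f x ≤ P.σ m + P.ρ m := by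
  by_cases h : ∃ x0 ∈ Fm P U m, tdist y x0 ≤ P.η m
  · obtain ⟨x0, h0, h1⟩ := h
    obtain ⟨u0, h2', h2, h3⟩ := mem_Fm.1 h0
    obtain ⟨F, hF, H⟩ := hc u0 h2' h2
    refine ⟨F, hF, fun x hx h4 => ?_⟩
    obtain ⟨u, h5, -, h6⟩ := mem_Fm.1 hx
    obtain ⟨f, hf, h7⟩ := H u h5 (by
      have := hP.ρη m hm
      have := tdist_triangle u0 x0 u
      have := tdist_triangle x0 y u
      have := tdist_triangle y x u
      have := tdist_comm x0 y
      have := tdist_comm x u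
      omega)
    exact ⟨f, hf, (tdist_triangle f u x).trans (add_le_add h7 h6)⟩
  · exact ⟨∅, by simp, fun x hx h1 => absurd ⟨x, hx, h1⟩ h⟩


theorem Fm_card' (hP : P.Ok L) {m : ℕ} (hm : m < P.mt) (hc : CovIn P U m) (z : Tor 3 L) {r : ℕ}
    (hr : P.η m ≤ r) :
    2 ^ (m + 3) * P.K m * ((Fm P U m ∩ bl z r).card : ℝ) ≤ (2 * (r : ℝ) + 1) ^ 3 := by
  have cb : ∀ (u : Tor 3 L) (a : ℕ), (bl u a).card ≤ (2 * a + 1) ^ 3 := fun u a => by
    exact_mod_cast card_bl u a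
  have h1 : (Fm P U m ∩ bl z r).card * (2 * P.η m + 1) ^ 3 ≤ (bl z (r + P.η m)).card * P.f m := by
    refine card_mul_le_card_mul (fun x y => tdist x y ≤ P.η m) (fun x hx => ?_) fun y _ => ?_
    · rw [← card_bl_eq x (hP.ηL m hm)]
      refine card_le_card fun y hy => ?_
      rw [mem_bipartiteAbove, mem_bl]
      exact ⟨(tdist_triangle z x y).trans (add_le_add (mem_bl.1 (mem_inter.1 hx).2) (mem_bl.1 hy)),
        mem_bl.1 hy⟩
    · obtain ⟨F, hF, H⟩ := Fm_cov' hP hm hc y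
      refine (card_le_card (t := F.biUnion fun f => bl f (P.σ m + P.ρ m)) fun x hx => ?_).trans
        ((card_biUnion_le_card_mul _ _ _ fun f _ => cb f _).trans (Nat.mul_le_mul_right _ hF))
      rw [mem_bipartiteBelow] at hx
      obtain ⟨f, hf, h⟩ := H x (mem_inter.1 hx.1).1 (tdist_comm x y ▸ hx.2)
      exact mem_biUnion.2 ⟨f, hf, mem_bl.2 h⟩
  have h2 : (bl z (r + P.η m)).card ≤ 8 * (2 * r + 1) ^ 3 :=
    (cb _ _).trans ((Nat.pow_le_pow_left (show _ ≤ 2 * (2 * r + 1) by omega) 3).trans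
      (le_of_eq (by ring)))
  have h3 : ((Fm P U m ∩ bl z r).card : ℝ) * (2 * P.η m + 1) ^ 3 ≤
      8 * (2 * (r : ℝ) + 1) ^ 3 * P.f m := by
    exact_mod_cast h1.trans (Nat.mul_le_mul_right _ h2)
  have h4 := hP.sparse m hm
  have h5 : 0 ≤ 2 ^ (m + 3) * P.K m := mul_nonneg (by positivity) (zero_le_one.trans (one_le_K P m))
  refine le_of_mul_le_mul_right ?_ (show (0 : ℝ) < (2 * P.η m + 1) ^ 3 by positivity)
  calc _ = 2 ^ (m + 3) * P.K m * (((Fm P U m ∩ bl z r).card : ℝ) * (2 * P.η m + 1) ^ 3) := by ring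
    _ ≤ 2 ^ (m + 3) * P.K m * (8 * (2 * (r : ℝ) + 1) ^ 3 * P.f m) := by gcongr
    _ = (2 * (r : ℝ) + 1) ^ 3 * (8 * (2 ^ (m + 3) * P.K m * P.f m)) := by ring
    _ ≤ (2 * (r : ℝ) + 1) ^ 3 * (8 * (P.η m : ℝ) ^ 3) := by gcongr
    _ = (2 * (r : ℝ) + 1) ^ 3 * (2 * (P.η m : ℝ)) ^ 3 := by ring
    _ ≤ _ := by gcongr; linarith


namespace Fill

/-- radii of the cubes -/
def Rd (t σ : ℕ) : ℕ → ℕ
  | 0 => 0
  | i + 1 => 3 * Rd t σ i + 3 * t + 2 * σ

/-- inner radii of the annuli -/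
def Ri (t σ : ℕ) : ℕ → ℕ
  | 0 => 0
  | i + 1 => 2 * Rd t σ i + 2 * t + 2 * σ

theorem Rd_mono (t σ : ℕ) : Monotone (Rd t σ) :=
  monotone_nat_of_le_succ fun i => by rw [Rd]; omega

theorem Ri_le (t σ i : ℕ) : Ri t σ i ≤ Rd t σ i := by cases i <;> simp only [Ri, Rd] <;> omega

theorem Rd_eq (t σ i : ℕ) : 2 * Rd t σ i + (3 * t + 2 * σ) = 3 ^ i * (3 * t + 2 * σ) := by
  induction i with
  | zero => simp [Rd]
  | succ i ih => rw [pow_succ', mul_assoc, ← ih, Rd]; ring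

theorem Rd_le (P : Scales) (m : ℕ) {i : ℕ} (h : i ≤ P.a m) : Rd tS (P.σ m) i + tS ≤ P.ρ m := by
  have h1 := Rd_mono tS (P.σ m) h
  have h2 := Rd_eq tS (P.σ m) (P.a m)
  have h3 : 3 ^ P.a m * (3 * tS + 2 * P.σ m) ≤ 2 * (3 ^ P.a m * (2 * tS + P.σ m)) := by
    rw [mul_left_comm]; exact Nat.mul_le_mul_left _ (by omega)
  unfold Scales.ρ
  omega

/-- the annulus `i` about `u` is free of `A` -/
def Fr (σ : ℕ) (A : Finset (Tor 3 L)) (u : Tor 3 L) (i : ℕ) : Prop :=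
  ∀ y ∈ A, Ri tS σ i < tdist u y → 2 * Rd tS σ i + 2 * tS < tdist u y

omit [NeZero L] in
theorem exists_free (hP : P.Ok L) {m : ℕ} (hm : m < P.mt) (hc : CovIn P U m) {u : Tor 3 L}
    (hu' : u ∈ U m) (hu : u ∉ U (m + 1)) : ∃ i ≤ P.a m, Fr (P.σ m) (U m) u i := by
  by_contra h
  obtain ⟨F, hF, H⟩ := hc u hu' hu
  have h1 : ∀ i ∈ range (P.a m + 1), ∃ f ∈ F, ∃ y, tdist f y ≤ P.σ m ∧
      Ri tS (P.σ m) i < tdist u y ∧ tdist u y ≤ 2 * Rd tS (P.σ m) i + 2 * tS := fun i hi => by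
    have hi : i ≤ P.a m := Nat.lt_succ_iff.1 (mem_range.1 hi)
    obtain ⟨y, hy, h2, h3⟩ : ∃ y ∈ U m, Ri tS (P.σ m) i < tdist u y ∧
        tdist u y ≤ 2 * Rd tS (P.σ m) i + 2 * tS := by
      by_contra h'
      exact h ⟨i, hi, fun y hy h2 => not_le.1 fun h3 => h' ⟨y, hy, h2, h3⟩⟩
    obtain ⟨f, hf, h4⟩ := H y hy (by have := Rd_le P m hi; have := hP.ρη m hm; omega)
    exact ⟨f, hf, y, h4, h2, h3⟩
  choose! f hf y h2 h3 h4 using h1
  obtain ⟨i, hi, j, hj, hij, e⟩ := exists_ne_map_eq_of_card_lt_of_maps_to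
    (by rw [card_range]; omega) hf
  wlog hlt : i < j generalizing i j
  · exact this j hj i hi hij.symm e.symm (by omega)
  obtain ⟨k, rfl⟩ : ∃ k, j = k + 1 := ⟨j - 1, by omega⟩
  have a1 := h2 i hi
  have a2 := h2 _ hj
  have a3 := h3 _ hj
  have a4 := h4 i hi
  have a5 := Rd_mono tS (P.σ m) (show i ≤ k by omega)
  have a6 := tdist_triangle u (y i) (y (k + 1))
  have a7 := tdist_triangle (y i) (f i) (y (k + 1))
  have a8 := tdist_comm (y i) (f i)
  rw [← e] at a2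
  rw [Ri] at a3
  omega

/-- the invariant -/
structure Inv (P : Scales) (U : ℕ → Finset (Tor 3 L)) (V Good : Finset (Tor 3 L))
    (w : Tor 3 L → ℝ) : Prop where
  st : St (Jn L) (U 0) V Good w
  cov : ∀ x ∉ Good, (∃ m, 1 ≤ m ∧ m < P.mt ∧ x ∈ Fm P U m) ∨
    ∃ u ∈ U 0, u ∉ U 1 ∧ tdist u x ≤ P.ρ 0 ∧ (x = u ∨ ∃ y ∈ U 0, y ≠ u ∧ tdist u y ≤ 2 * tS)
  wt : ∀ x, w x = 1 ∨ ∃ m < P.mt, x ∈ Fm P U m ∧ w x ≤ P.K m

theorem level (hP : P.Ok L) {m : ℕ} (hm : m < P.mt) (ι : Tor 3 L → ℕ)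
    (hι : ∀ u ∈ U m, u ∉ U (m + 1) → ι u ≤ P.a m ∧ Fr (P.σ m) (U m) u (ι u) ∧
      (ι u = 0 ∨ ¬ Fr (P.σ m) (U m) u 0)) (V : Finset (Tor 3 L)) :
    ∀ Good w, Inv P U V Good w → V ⊆ U m →
      (∀ x, w x ≤ K' P m ∨ (w x ≤ K' P (m + 1) ∧ ∃ v ∈ U m, tdist v x ≤ Rd tS (P.σ m) (ι v) + tS ∧
        ∀ u ∈ V, Rd tS (P.σ m) (ι v) < tdist v u ∧ (u ∉ U (m + 1) → ι v ≤ ι u))) →
      ∃ V Good w, Inv P U V Good w ∧ V ⊆ U (m + 1) ∧ ∀ x, w x ≤ K' P (m + 1) := by
  induction V using Finset.strongInduction with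
  | H V ih =>
  intro Good w I hV hw
  by_cases hE : V ⊆ U (m + 1)
  · exact ⟨V, Good, w, I, hE, fun x => (hw x).elim (fun h => h.trans (K'_le_succ P m)) And.left⟩
  obtain ⟨u, hu0, hmin⟩ := exists_min_image (V \ U (m + 1)) ι (sdiff_nonempty.2 hE)
  obtain ⟨hu, hu'⟩ := mem_sdiff.1 hu0
  obtain ⟨i1, i2, i3⟩ := hι u (hV hu) hu'
  have hρ := Rd_le P m i1
  have hRi := Ri_le tS (P.σ m) (ι u)
  obtain ⟨hJ, H⟩ := shell_nn L
  obtain ⟨r, hr, H⟩ := H u (Rd tS (P.σ m) (ι u)) (by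
    have := hP.ρη m hm; have := hP.ηL m hm; omega)
  set a := Rd tS (P.σ m) (ι u) with ha
  have hQ : ∀ x ∈ bl u a ∪ (bl u (a + tS) \ bl u a), tdist u x ≤ a + tS := fun x hx => by
    simp only [mem_union, mem_sdiff, mem_bl] at hx; omega
  have hF : ∀ x, tdist u x ≤ a + tS → x ∈ Fm P U m := fun x hx =>
    mem_Fm.2 ⟨u, hV hu, hu', hx.trans hρ⟩
  have h1 : (1 : ℝ) ≤ ((2 * (a + tS) + 1 : ℕ) : ℝ) ^ 3 :=
    one_le_pow₀ (by exact_mod_cast (by omega : 1 ≤ 2 * (a + tS) + 1))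
  have hst := I.st.fill (torJ_symm (Asy.coup_nn 3)) (torJ_nonneg (Asy.coup_nn 3))
    (W := K' P m) (W' := K' P (m + 1))
    (fun x hx => (mem_sdiff.1 hx).2) (fun x hx hx' => by
      simp only [mem_sdiff, mem_bl, not_le] at hx
      have := i2 x (hV hx') (by omega)
      omega) hr (fun x hx y hy h => by
      have := hJ x y h
      have := tdist_triangle u x y
      rw [mem_bl] at hx
      exact mem_sdiff.2 ⟨mem_bl.2 (by omega), hy⟩)
    (fun x hx => (hw x).resolve_right (by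
      rintro ⟨-, v, v1, v2, v3⟩
      simp only [mem_sdiff, mem_bl, not_le] at hx
      obtain ⟨v4, v5⟩ := v3 u hu
      have v6 := Rd_mono tS (P.σ m) (v5 hu')
      have := tdist_triangle u x v
      have := tdist_triangle u v x
      have := tdist_comm x v
      have := tdist_comm u v
      have v7 : tdist u v ≤ Ri tS (P.σ m) (ι u) := not_lt.1 fun h => by
        have := i2 v v1 h
        omega
      rcases (v5 hu').eq_or_lt with e | e
      · rw [e] at v4; omega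
      · obtain ⟨k, hk⟩ : ∃ k, ι u = k + 1 := ⟨ι u - 1, by omega⟩
        have := Rd_mono tS (P.σ m) (show ι v ≤ k by omega)
        rw [hk, Ri] at v7
        rw [hk, Rd] at ha
        omega)) H
    ((card_bl u a).trans (le_trans (by gcongr; omega) ((le_self_pow₀ h1 (n := 3) (by norm_num)).trans
      (le_mul_of_one_le_left (by positivity) one_le_kS))))
    (by
      rw [K'_succ, ← pow_mul]
      have := one_le_K' P m
      have := one_le_kS
      gcongr
      exact_mod_cast (by omega : 2 * (a + tS) + 1 ≤ 2 * P.ρ m + 1))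
  refine ih _ ⟨sdiff_subset, fun h => (mem_sdiff.1 (h hu)).2
    (mem_bl.2 (by rw [tdist_self]; omega))⟩ _ _ ⟨hst, fun x hx => ?_, fun x => ?_⟩
    (sdiff_subset.trans hV) fun x => ?_
  · by_cases h : x ∈ Good
    · have h2 : tdist u x ≤ a := mem_bl.1 (by simpa [h] using hx)
      rcases m with _ | m
      · refine .inr ⟨u, hV hu, hu', by omega, i3.imp (fun e => ?_) fun e => ?_⟩
        · rw [e, Rd] at ha
          exact (tdist_eq_zero.1 (by omega)).symm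
        · by_contra h'
          refine e fun y hy h3 => not_le.1 fun h4 => h' ⟨y, hy, fun e => ?_, by simpa [Rd] using h4⟩
          rw [e, tdist_self] at h3
          exact absurd h3 (Nat.not_lt_zero _)
      · exact .inl ⟨m + 1, by omega, hm, hF x (by omega)⟩
    · exact I.cov x h
  · split_ifs with h
    · exact .inr ⟨m, hm, hF x (hQ x h), le_rfl⟩
    · exact I.wt x
  · split_ifs with h
    · exact .inr ⟨le_rfl, u, hV hu, hQ x h, fun v hv =>
        ⟨not_le.1 fun h => (mem_sdiff.1 hv).2 (mem_bl.2 h),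
          fun hv' => hmin v (mem_sdiff.2 ⟨(mem_sdiff.1 hv).1, hv'⟩)⟩⟩
    · exact (hw x).imp_right fun ⟨b, v, v1, v2, v3⟩ =>
        ⟨b, v, v1, v2, fun y hy => v3 y (mem_sdiff.1 hy).1⟩

end Fill

/-- partial filling: the points of `U mt` may stay unfilled. -/
theorem fill' (hP : P.Ok L) (hc : ∀ m < P.mt, CovIn P U m) :
    ∃ (V Good : Finset (Tor 3 L)) (w : Tor 3 L → ℝ), V ⊆ U P.mt ∧ St (Jn L) (U 0) V Good w ∧
      (∀ x ∉ Good, (∃ m, 1 ≤ m ∧ m < P.mt ∧ x ∈ Fm P U m) ∨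
        ∃ u ∈ U 0, u ∉ U 1 ∧ tdist u x ≤ P.ρ 0 ∧
          (x = u ∨ ∃ y ∈ U 0, y ≠ u ∧ tdist u y ≤ 2 * tS)) ∧
      ∀ x, w x = 1 ∨ ∃ m < P.mt, x ∈ Fm P U m ∧ w x ≤ P.K m := by
  have main : ∀ m ≤ P.mt, ∃ V Good w, Fill.Inv P U V Good w ∧ V ⊆ U m ∧ ∀ x, w x ≤ Fill.K' P m := by
    intro m hm
    induction m with
    | zero =>
      exact ⟨U 0, univ, 1, ⟨St.init _ _ _, fun x hx => absurd (mem_univ x) hx, fun _ => .inl rfl⟩,
        Subset.rfl, fun _ => le_rfl⟩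
    | succ m ih =>
      obtain ⟨V, Good, w, I, h1, h2⟩ := ih (by omega)
      have h3 : ∀ u, ∃ i, u ∈ U m → u ∉ U (m + 1) → i ≤ P.a m ∧ Fill.Fr (P.σ m) (U m) u i ∧
          (i = 0 ∨ ¬ Fill.Fr (P.σ m) (U m) u 0) := fun u => by
        by_cases h : Fill.Fr (P.σ m) (U m) u 0
        · exact ⟨0, fun _ _ => ⟨Nat.zero_le _, h, .inl rfl⟩⟩
        by_cases hu : u ∈ U (m + 1)
        · exact ⟨0, fun _ h => absurd hu h⟩
        by_cases hu' : u ∈ U m
        · obtain ⟨i, hi, h'⟩ := Fill.exists_free hP hm (hc m hm) hu' hu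
          exact ⟨i, fun _ _ => ⟨hi, h', .inr h⟩⟩
        · exact ⟨0, fun h => absurd h hu'⟩
      choose ι hι using h3
      exact Fill.level hP hm ι hι V Good w I h1 fun x => .inl (h2 x)
  obtain ⟨V, Good, w, I, h1, -⟩ := main _ le_rfl
  exact ⟨V, Good, w, h1, I.st, I.cov, I.wt⟩


end Crest.Agent.N337.G1
private theorem rz_7c98026251 : type_of% @_root_.Crest.Agent.N337.G1.Fill.Rd.eq_def := @_root_.Crest.Agent.N337.G1.Fill.Rd.eq_def -- L153
private theorem rz_9e53e01e96 : type_of% @_root_.Crest.Agent.N337.G1.Fill.Rd.eq_1 := @_root_.Crest.Agent.N337.G1.Fill.Rd.eq_1 -- L153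
private theorem rz_277c564625 : type_of% @_root_.Crest.Agent.N337.G1.Fill.Ri.eq_1 := @_root_.Crest.Agent.N337.G1.Fill.Ri.eq_1 -- L158
end

-- ▼ part N337/G1/Cross
section

/-!
# Row 337, G1: a chain that crosses a region is exposed (leaf G1-Cross)

`radial`: induction on `m`.  Step `m+1 → m`: by `Fm_cov` the set `Fm (m+1)` near `c i` lies in `a`
balls, each has radial spread `≤ 2(σ+ρ)`; of the `a+1` blocks `[β, β + 2 η m]`,
`β = ι (2(σ+ρ) + 2 η m + 1)`, one is free; take `i2 ∈ [i, i']` with radius `β + η m` (discrete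
intermediate values).
`cross`: `D = w E`, `W0 = (u.1.val + i) / D`; `i1` = least index `≥ i` at distance `≥ r0` or with
time `≥ (W0+l+1) D`.  (A) some `i' ∈ [i,i1)` has no red point within `A` during the double window
that starts at its window `W'`: the slot `c i'` is not in `Z` (`h > 0`), sees only free steps
(`Env.nn`, `Env.free`), `Grn.step_ge` and `exp (-2x) ≤ 1 - x` give the bound on window `W'+1`.
(B) otherwise inside one window the radial function from any index takes `≤ j (2A+1)` values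
(`Leaf.shd`), so the chain moves `< j (2A+1)` per window, stays within `(l+1) j (2A+1)`, `i1` is
given by the time, and in the window given by `Leaf3` (from `W0+1`) the chain itself is exposed.
-/

set_option autoImplicit false
set_option linter.unusedSectionVars false

namespace Crest.Agent.N337.G1

open Finset Crest.MathPhysics.SpinModel Geo Free KV

/-- discrete intermediate values. -/
theorem ivt {f : ℕ → ℕ} {i i' t : ℕ} (hi : i ≤ i')
    (hs : ∀ k, i ≤ k → k < i' → f (k + 1) ≤ f k + 1 ∧ f k ≤ f (k + 1) + 1)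
    (h : (f i ≤ t ∧ t ≤ f i') ∨ (f i' ≤ t ∧ t ≤ f i)) : ∃ k, i ≤ k ∧ k ≤ i' ∧ f k = t := by
  induction i', hi using Nat.le_induction with
  | base => exact ⟨i, le_rfl, le_rfl, by omega⟩
  | succ k hk ih =>
    by_cases h' : (f i ≤ t ∧ t ≤ f k) ∨ (f k ≤ t ∧ t ≤ f i)
    · obtain ⟨k', h1, h2, h3⟩ := ih (fun a ha hb => hs a ha (by omega)) h'
      exact ⟨k', h1, by omega, h3⟩
    · have := hs k hk (by omega)
      exact ⟨k + 1, by omega, le_rfl, by omega⟩

variable {L : ℕ} [NeZero L]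

/-- every radius is attained. -/
theorem Cr.rad {c : ℕ → Tor 3 L} {i i' t : ℕ} (hi : i ≤ i')
    (hs : ∀ k, i ≤ k → k < i' → tdist (c k) (c (k + 1)) ≤ 1) (ht : t ≤ tdist (c i) (c i')) :
    ∃ k, i ≤ k ∧ k ≤ i' ∧ tdist (c i) (c k) = t := by
  refine ivt (f := fun k => tdist (c i) (c k)) hi (fun k h1 h2 => ?_)
    (Or.inl ⟨by simp only [tdist_self]; omega, ht⟩)
  have a1 := tdist_triangle (c i) (c k) (c (k + 1))
  have a2 := tdist_triangle (c i) (c (k + 1)) (c k)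
  have a3 := hs k h1 h2
  rw [tdist_comm (c (k + 1))] at a2
  exact ⟨by omega, by omega⟩

/-- pigeonhole for well separated values. -/
theorem Cr.pig {α : Type} {F : Finset α} {a M : ℕ} (hF : F.card ≤ a) (V : α → ℕ → Prop)
    (h1 : ∀ ι ≤ a, ∃ f ∈ F, V f (ι * M)) (h2 : ∀ f t t', V f t → V f t' → t' < t + M) : False := by
  have : Nonempty α := ⟨(h1 0 (Nat.zero_le _)).choose⟩
  choose! φ hφ hV using h1
  have key : ∀ ι ≤ a, ∀ ι' ≤ a, φ ι = φ ι' → ι' ≤ ι := fun ι h ι' h' e => by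
    have := h2 _ _ _ (hV ι h) (e ▸ hV ι' h')
    rw [← Nat.succ_mul] at this
    exact Nat.le_of_lt_succ (Nat.lt_of_mul_lt_mul_right this)
  have := card_le_card_of_injOn (s := range (a + 1)) (t := F) φ
    (fun ι h => hφ ι (Nat.le_of_lt_succ (mem_range.1 h))) fun ι h ι' h' e =>
      le_antisymm (key _ (Nat.le_of_lt_succ (mem_range.1 h')) _ (Nat.le_of_lt_succ (mem_range.1 h))
        e.symm) (key _ (Nat.le_of_lt_succ (mem_range.1 h)) _ (Nat.le_of_lt_succ (mem_range.1 h')) e)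
  rw [card_range] at this
  omega

theorem radial {P : Scales} {U : ℕ → Finset (Tor 3 L)} (hP : P.Ok L)
    (hc : ∀ m, 1 ≤ m → m < P.mt → CovIn P U m) {c : ℕ → Tor 3 L} {N : ℕ}
    (hs : ∀ i < N, tdist (c i) (c (i + 1)) ≤ 1) {m : ℕ} (hm : m < P.mt) {i i' : ℕ} (hi : i ≤ i')
    (hi' : i' ≤ N) (hd : P.η m ≤ tdist (c i) (c i'))
    (hf : ∀ y, tdist (c i) y ≤ P.η m → ∀ l, m < l → l < P.mt → y ∉ Fm P U l) :
    ∃ i2, i ≤ i2 ∧ i2 ≤ i' ∧ P.η 0 ≤ tdist (c i2) (c i') ∧ ∀ y, tdist (c i2) y ≤ P.η 0 →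
      tdist (c i) y ≤ P.η m ∧ ∀ l, 0 < l → l < P.mt → y ∉ Fm P U l := by
  induction m generalizing i with
  | zero => exact ⟨i, le_rfl, hi, hd, fun y hy => ⟨hy, hf y hy⟩⟩
  | succ m ih =>
    obtain ⟨F, hF, hcov⟩ := Fm_cov' hP hm (hc _ (by omega) hm) (c i)
    have hg := hP.grow m hm
    set s := P.σ (m + 1) + P.ρ (m + 1)
    obtain ⟨ι, hι, hfree⟩ : ∃ ι ≤ P.a (m + 1), ∀ f ∈ F, ∀ x, tdist f x ≤ s →
        ι * (2 * s + 2 * P.η m + 1) ≤ tdist (c i) x →
        ι * (2 * s + 2 * P.η m + 1) + 2 * P.η m < tdist (c i) x := by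
      by_contra! hcon
      refine Cr.pig hF (fun f t => ∃ x, tdist f x ≤ s ∧ t ≤ tdist (c i) x ∧
        tdist (c i) x ≤ t + 2 * P.η m) hcon ?_
      rintro f t t' ⟨x, a1, -, a2⟩ ⟨x', b1, b2, -⟩
      have c1 := tdist_triangle (c i) x x'
      have c2 := tdist_triangle x f x'
      rw [tdist_comm x f] at c2
      omega
    have hβ := Nat.mul_le_mul_right (2 * s + 2 * P.η m + 1) (Nat.succ_le_succ hι)
    rw [Nat.succ_mul] at hβ
    set β := ι * (2 * s + 2 * P.η m + 1)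
    have hβ' : β + 2 * P.η m ≤ P.η (m + 1) := by
      have : (P.a (m + 1)).succ = P.a (m + 1) + 1 := rfl
      rw [this] at hβ
      omega
    obtain ⟨k, k1, k2, k3⟩ := Cr.rad (t := β + P.η m) hi (fun k _ h => hs k (by omega)) (by omega)
    have t1 := tdist_triangle (c i) (c k) (c i')
    obtain ⟨i2, j1, j2, j3, j4⟩ := ih (by omega) k2 (by omega) fun y hy l l1 l2 => by
      have t2 := tdist_triangle (c i) (c k) y
      have t3 := tdist_triangle (c i) y (c k)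
      rw [tdist_comm y] at t3
      rcases Nat.lt_or_ge (m + 1) l with h | h
      · exact hf y (by omega) l h l2
      · obtain rfl : l = m + 1 := by omega
        intro hx
        obtain ⟨f, f1, f2⟩ := hcov y hx (by omega)
        have := hfree f f1 y f2 (by omega)
        omega
    refine ⟨i2, k1.trans j1, j2, j3, fun y hy => ⟨?_, (j4 y hy).2⟩⟩
    have := tdist_triangle (c i) (c k) y
    have := (j4 y hy).1
    omega

variable {n T : ℕ} [NeZero T] {ex ey : Fin T → Tor 3 L × Fin n} {p p0 b0 : Fin T → ℝ}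
  {b g : Fin T × (Tor 3 L × Fin n) → ℝ} {u v : Fin T × (Tor 3 L × Fin n)} {Y m κ : ℝ}
  {R : Finset (Fin T × (Tor 3 L × Fin n))} {Z : Finset (Tor 3 L)} {N E w : ℕ}
  {c : ℕ → Tor 3 L × Fin n}

theorem Env.step_le (hE : Env ex ey p p0 b b0 R Z) {s : Fin T} {x y : Tor 3 L × Fin n}
    (h : y = x ∨ (p s ≠ 0 ∧ y = Equiv.swap (ex s) (ey s) x)) : tdist x.1 y.1 ≤ 1 := by
  rcases h with e | ⟨hp, e⟩
  · rw [e, tdist_self]
    omega
  · have := hE.nn _ hp
    rw [e, Equiv.swap_apply_def]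
    split_ifs with h1 h2
    · rwa [h1]
    · rwa [h2, tdist_comm]
    · rw [tdist_self]
      omega

theorem Chain.nn {h : Fin T × (Tor 3 L × Fin n) → ℝ} (C : Chain ex ey p h u v m N c)
    (hE : Env ex ey p p0 b b0 R Z) {i : ℕ} (hi : i < N) : tdist (c i).1 (c (i + 1)).1 ≤ 1 :=
  hE.step_le (C.step i hi)

theorem Cr.tch_bd (hp0 : ∀ s, 0 ≤ p0 s ∧ p0 s ≤ 1 / 2) (z : Tor 3 L × Fin n) (k : ℕ) :
    0 ≤ tch ex ey p0 z k ∧ tch ex ey p0 z k ≤ 1 / 2 := by
  unfold tch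
  split_ifs
  exacts [hp0 _, ⟨le_rfl, by norm_num⟩]

theorem Cr.exp_le {x : ℝ} (h0 : 0 ≤ x) (h1 : x ≤ 1 / 2) : Real.exp (-(2 * x)) ≤ 1 - x := by
  have h := Real.add_one_le_exp (2 * x)
  rw [Real.exp_neg, inv_le_comm₀ (Real.exp_pos _) (by linarith)]
  refine le_trans ?_ h
  rw [inv_le_iff_one_le_mul₀ (by linarith)]
  nlinarith

/-- a slot that is far from the red points keeps its mass during a double window. -/
theorem Cr.stat (G : Grn ex ey p b u Y g) (hE : Env ex ey p p0 b b0 R Z)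
    (hP : Pers ex ey p0 b0 E w κ) (hp0 : ∀ s, 0 ≤ p0 s ∧ p0 s ≤ 1 / 2) (hm : 0 < m)
    {z : Tor 3 L × Fin n} {W k0 k : ℕ} (h0 : W * (w * E) ≤ k0) (h1 : k0 ≤ k)
    (h2 : k < (W + 2) * (w * E)) (hz : m ≤ b (tm T k0, z) * g (tm T k0, z))
    (hR : ∀ k ∈ Ico (W * (w * E)) ((W + 2) * (w * E)), ∀ y, (tm T k, y) ∈ R → 1 < tdist z.1 y.1) :
    m * Real.exp (-(2 * κ)) / 4 ≤ b (tm T k, z) * g (tm T k, z) := by
  have hZ : z.1 ∉ Z := fun h => by
    rw [hE.bZ (tm T k0, z) h, zero_mul] at hz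
    linarith
  have key : m * Real.exp (-(2 * ∑ a ∈ Ico k0 k, tch ex ey p0 z a)) *
      ∏ a ∈ Ico (k0 + 1) (k + 1), b0 (tm T a) ≤ b (tm T k, z) * g (tm T k, z) := by
    induction k, h1 using Nat.le_induction with
    | base => simpa using hz
    | succ k hk ih =>
      have i1 := ih (by omega)
      have hb : b (tm T (k + 1), z) = b0 (tm T (k + 1)) := hE.bf _ (fun h => by
        have := hR (k + 1) (mem_Ico.2 ⟨by omega, h2⟩) z h
        rw [tdist_self] at this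
        omega) hZ
      have hs := G.step_ge (tm T k) z
      have ht := Cr.tch_bd (ex := ex) (ey := ey) hp0 z k
      have hp : (if z = ex (tm T k) ∨ z = ey (tm T k) then p (tm T k) else 0) ≤
          tch ex ey p0 z k := by
        unfold tch
        split_ifs with h
        · by_cases e : p (tm T k) = 0
          · rw [e]
            exact (hp0 _).1
          have hn := hE.nn _ e
          have hr := hR k (mem_Ico.2 ⟨by omega, by omega⟩)
          have a1 : tdist z.1 (ex (tm T k)).1 ≤ 1 ∧ tdist z.1 (ey (tm T k)).1 ≤ 1 := by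
            rcases h with rfl | rfl
            · exact ⟨by rw [tdist_self]; omega, hn⟩
            · exact ⟨by rwa [tdist_comm], by rw [tdist_self]; omega⟩
          rcases hE.free _ (fun h => (hr _ h).not_ge a1.1) (fun h => (hr _ h).not_ge a1.2) with
            e | e
          · exact e.le
          · rcases h with rfl | rfl
            exacts [absurd e.1 hZ, absurd e.2 hZ]
        · exact le_rfl
      have hh : 0 ≤ b (tm T k, z) * g (tm T k, z) := mul_nonneg (G.hb _).1 (G.nn _)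
      rw [sum_Ico_succ_top hk, prod_Ico_succ_top (by omega), hb, mul_add, neg_add, Real.exp_add,
        tm_succ]
      calc _ = b0 (tm T k + 1) * (Real.exp (-(2 * tch ex ey p0 z k)) *
            (m * Real.exp (-(2 * ∑ a ∈ Ico k0 k, tch ex ey p0 z a)) *
              ∏ a ∈ Ico (k0 + 1) (k + 1), b0 (tm T a))) := by ring
        _ ≤ _ := mul_le_mul_of_nonneg_left (le_trans ((mul_le_mul_of_nonneg_left i1
            (Real.exp_pos _).le).trans (mul_le_mul_of_nonneg_right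
              ((Cr.exp_le ht.1 ht.2).trans (by linarith)) hh)) hs) (hP.hb0 _).1
  refine le_trans ?_ key
  have a1 : ∑ a ∈ Ico k0 k, tch ex ey p0 z a ≤ κ := (sum_le_sum_of_subset_of_nonneg
    (Ico_subset_Ico h0 h2.le) fun a _ _ => (Cr.tch_bd hp0 z a).1).trans (hP.rate W z)
  have a2 : 1 / 4 ≤ ∏ a ∈ Ico (k0 + 1) (k + 1), b0 (tm T a) := (hP.fug W).trans
    (prod_le_prod_of_subset_of_le_one (Ico_subset_Ico (by omega) h2) (fun a _ => (hP.hb0 _).1)
      fun a _ _ => (hP.hb0 _).2)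
  rw [div_eq_mul_one_div]
  exact mul_le_mul (mul_le_mul_of_nonneg_left (Real.exp_le_exp.2 (by linarith)) hm.le) a2
    (by norm_num) (by positivity)

theorem Cr.win {W s : ℕ} (hD : 0 < w * E) (hs : s ∈ Ico (W * w) ((W + 1) * w)) :
    W * (w * E) ≤ s * E ∧ s * E < (W + 1) * (w * E) := by
  rw [← mul_assoc, ← mul_assoc]
  exact ⟨Nat.mul_le_mul_right E (mem_Ico.1 hs).1,
    Nat.mul_lt_mul_of_pos_right (mem_Ico.1 hs).2 (Nat.pos_of_mul_pos_left hD)⟩

/-- the dichotomy behind `cross` (no Green function). -/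
theorem cross0 (hE : Env ex ey p p0 b b0 R Z) (hD : 0 < w * E) {t0 : ℕ}
    (hs : ∀ i < N, c (i + 1) = c i ∨ (p (tm T (t0 + i)) ≠ 0 ∧
      c (i + 1) = Equiv.swap (ex (tm T (t0 + i))) (ey (tm T (t0 + i))) (c i)))
    {i r0 r j l A r3 m0 : ℕ} (hi : i ≤ N) (hL : Leaf ex ey p R (w * E) m0 j r (c i).1)
    (h3 : Leaf3 R (w * E) l A r3 (c i).1) (hr : r0 + A ≤ r)
    (h1 : (l + 1) * (j * (2 * A + 1)) < r0) (h2 : (l + 1) * (j * (2 * A + 1)) + A ≤ r3)
    (H : (∃ i', i ≤ i' ∧ i' ≤ N ∧ r0 ≤ tdist (c i).1 (c i').1) ∨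
      ((t0 + i) / (w * E) + l + 1) * (w * E) ≤ t0 + N) :
    (∃ i', i ≤ i' ∧ i' < N ∧ tdist (c i).1 (c i').1 ≤ r0 ∧
      (t0 + i') / (w * E) ≤ (t0 + i) / (w * E) + l ∧
      ∀ k ∈ Ico ((t0 + i') / (w * E) * (w * E)) (((t0 + i') / (w * E) + 2) * (w * E)), ∀ y,
        (tm T k, y) ∈ R → A < tdist (c i').1 y.1) ∨
    ∃ W, (t0 + i) / (w * E) + 1 ≤ W ∧ W ≤ (t0 + i) / (w * E) + l ∧
      ∀ k ∈ Ico (W * (w * E)) ((W + 1) * (w * E)), ∃ i', i ≤ i' ∧ i' < N ∧ t0 + i' = k ∧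
        tdist (c i).1 (c i').1 ≤ r0 ∧ Exp R A k (c i').1 := by
  classical
  set D := w * E with hDe
  rename' t0 => t
  have hnn : ∀ k < N, tdist (c k).1 (c (k + 1)).1 ≤ 1 := fun k hk => hE.step_le (hs k hk)
  set M := j * (2 * A + 1) with hM
  have hex : ∃ k, i ≤ k ∧ k ≤ N ∧
      (r0 ≤ tdist (c i).1 (c k).1 ∨ ((t + i) / D + l + 1) * D ≤ t + k) := by
    rcases H with ⟨k, a1, a2, a3⟩ | h
    exacts [⟨k, a1, a2, Or.inl a3⟩, ⟨N, hi, le_rfl, Or.inr h⟩]
  obtain ⟨b1, b2, b3⟩ := Nat.find_spec hex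
  set i1 := Nat.find hex
  have hmin : ∀ k, i ≤ k → k < i1 →
      tdist (c i).1 (c k).1 < r0 ∧ (t + k) / D ≤ (t + i) / D + l := fun k k1 k2 => by
    have := Nat.find_min hex k2
    push Not at this
    obtain ⟨a1, a2⟩ := this k1 (by omega)
    exact ⟨a1, Nat.le_of_lt_succ ((Nat.div_lt_iff_lt_mul hD).2 a2)⟩
  have hlo : ∀ k, k / D * D ≤ k := fun k => Nat.div_mul_le_self k D
  have hhi : ∀ k, k < (k / D + 1) * D := fun k => (Nat.div_lt_iff_lt_mul hD).1 (Nat.lt_succ_self _)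
  have hmo : ∀ a k, a ≤ k → (t + a) / D ≤ (t + k) / D := fun a k h =>
    Nat.div_le_div_right (by omega)
  by_cases hA' : ∃ k, i ≤ k ∧ k < i1 ∧ ∀ a ∈ Ico ((t + k) / D * D) (((t + k) / D + 2) * D), ∀ y,
      (tm T a, y) ∈ R → A < tdist (c k).1 y.1
  · obtain ⟨k, k1, k2, hk⟩ := hA'
    exact Or.inl ⟨k, k1, by omega, (hmin k k1 k2).1.le, (hmin k k1 k2).2, hk⟩
  push Not at hA'
  have hB1 : ∀ a k, i ≤ a → a ≤ k → k < i1 → (t + a) / D = (t + k) / D →
      tdist (c a).1 (c k).1 < M := fun a k a1 a2 a3 e => by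
    by_contra! hcon
    refine Cr.pig (M := 2 * A + 1) (hL.shd ((t + k) / D)) (fun y r => ∃ q,
      tdist (c a).1 (c q).1 = r ∧ tdist (c q).1 y.1 ≤ A) (fun ι hι => ?_) ?_
    · obtain ⟨q, q1, q2, q3⟩ := Cr.rad (c := fun q => (c q).1) a2
        (fun q _ h => hnn q (by omega)) ((Nat.mul_le_mul_right (2 * A + 1) hι).trans hcon)
      obtain ⟨a', ha', y, hy, hd⟩ := hA' q (by omega) (by omega)
      have e' : (t + q) / D = (t + k) / D := le_antisymm (hmo _ _ q2) (e ▸ hmo _ _ q1)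
      have d1 := tdist_triangle (c i).1 (c q).1 y.1
      have d2 := (hmin q (by omega) (by omega)).1
      refine ⟨y, ?_, q, q3, hd⟩
      simp only [mem_filter]
      exact ⟨mem_univ _, by omega, a', e' ▸ ha', hy⟩
    · rintro y r r' ⟨q, rfl, q1⟩ ⟨q', rfl, q2⟩
      have d1 := tdist_triangle (c a).1 (c q).1 (c q').1
      have d2 := tdist_triangle (c q).1 y.1 (c q').1
      rw [tdist_comm y.1] at d2
      omega
  have hB2 : ∀ k, i ≤ k → k < i1 → ∃ q a, (t + k) / D = (t + i) / D + q ∧ i ≤ a ∧ a ≤ k ∧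
      (t + a) / D = (t + k) / D ∧ tdist (c i).1 (c a).1 ≤ q * M := fun k k1 => by
    induction k, k1 using Nat.le_induction with
    | base => exact fun _ => ⟨0, i, rfl, le_rfl, le_rfl, rfl, by rw [tdist_self]; omega⟩
    | succ k k1 ih =>
      intro k2
      obtain ⟨q, a, a1, a2, a3, a4, a5⟩ := ih (by omega)
      have e : (t + (k + 1)) / D = (t + k) / D + if D ∣ t + k + 1 then 1 else 0 := Nat.succ_div
      split_ifs at e
      · refine ⟨q + 1, k + 1, by omega, by omega, le_rfl, rfl, ?_⟩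
        have d1 := tdist_triangle (c i).1 (c a).1 (c k).1
        have d2 := tdist_triangle (c i).1 (c k).1 (c (k + 1)).1
        have d3 := hnn k (by omega)
        have d4 := hB1 a k a2 a3 (by omega) a4
        rw [Nat.succ_mul]
        omega
      · exact ⟨q, a, by omega, a2, by omega, by omega, a5⟩
  have hB3 : ∀ k, i ≤ k → k < i1 → tdist (c i).1 (c k).1 < (l + 1) * M := fun k k1 k2 => by
    obtain ⟨q, a, a1, a2, a3, a4, a5⟩ := hB2 k k1 k2
    have d1 := tdist_triangle (c i).1 (c a).1 (c k).1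
    have d2 := hB1 a k a2 a3 k2 a4
    have d3 := (hmin k k1 k2).2
    have d4 := Nat.mul_le_mul_right M (show q ≤ l by omega)
    rw [Nat.succ_mul]
    omega
  have hT : ((t + i) / D + l + 1) * D ≤ t + i1 := by
    refine b3.resolve_left (not_le.2 ?_)
    rcases b1.eq_or_lt with e | e
    · rw [← e, tdist_self]
      omega
    · obtain ⟨k, hk⟩ : ∃ k, i1 = k + 1 := ⟨i1 - 1, by omega⟩
      have d1 := hB3 k (by omega) (by omega)
      have d2 := tdist_triangle (c i).1 (c k).1 (c (k + 1)).1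
      have d3 := hnn k (by omega)
      rw [hk]
      omega
  obtain ⟨W, hW, hN⟩ := h3 ((t + i) / D + 1)
  obtain ⟨w1, w2⟩ := mem_Ico.1 hW
  refine Or.inr ⟨W, w1, by omega, fun k hk => ?_⟩
  obtain ⟨s1, s2⟩ := mem_Ico.1 hk
  have s3 := (hhi (t + i)).le.trans ((Nat.mul_le_mul_right D w1).trans s1)
  have s4 := s2.trans_le ((Nat.mul_le_mul_right D
    (show W + 1 ≤ (t + i) / D + l + 1 by omega)).trans hT)
  have d1 := hB3 (k - t) (by omega) (by omega)
  exact ⟨k - t, by omega, by omega, by omega, (d1.trans h1).le, hN _ hk _ (by omega)⟩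

theorem exp_of_far {A k : ℕ} {z : Tor 3 L} (h : ∀ y, (tm T k, y) ∈ R → A < tdist z y.1) :
    Exp R A k z := by
  unfold Exp
  rw [filter_eq_empty_iff.2 fun y hy ⟨c, hc⟩ => (h _ hc).not_ge (mem_bl.1 hy)]
  exact Nat.zero_le _

theorem cross (G : Grn ex ey p b u Y g) (hE : Env ex ey p p0 b b0 R Z)
    (hP : Pers ex ey p0 b0 E w κ) (hp0 : ∀ s, 0 ≤ p0 s ∧ p0 s ≤ 1 / 2) (hD : 0 < w * E)
    (C : Chain ex ey p (fun v => b v * g v) u v m N c) (hm : 0 < m) {i r0 r j l A r3 m0 : ℕ}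
    (hi : i ≤ N) (hA : 1 ≤ A) (hL : Leaf ex ey p R (w * E) m0 j r (c i).1)
    (h3 : Leaf3 R (w * E) l A r3 (c i).1) (hr : r0 + A ≤ r)
    (h1 : (l + 1) * (j * (2 * A + 1)) < r0) (h2 : (l + 1) * (j * (2 * A + 1)) + A ≤ r3)
    (H : (∃ i', i ≤ i' ∧ i' ≤ N ∧ r0 ≤ tdist (c i).1 (c i').1) ∨
      ((u.1.val + i) / (w * E) + l + 1) * (w * E) ≤ u.1.val + N) :
    ∃ (W : ℕ) (z : ℕ → Tor 3 L × Fin n), (u.1.val + i) / (w * E) + 1 ≤ W ∧
      W ≤ (u.1.val + i) / (w * E) + l + 1 ∧ ∀ s ∈ Ico (W * w) ((W + 1) * w),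
        m * Real.exp (-(2 * κ)) / 4 ≤ b (tm T (s * E), z s) * g (tm T (s * E), z s) ∧
        tdist (c i).1 (z s).1 ≤ r0 ∧ Exp R A (s * E) (z s).1 := by
  rcases cross0 hE hD C.step hi hL h3 hr h1 h2 H with ⟨k, k1, k2, k3, k4, hk⟩ | ⟨W, w1, w2, hW⟩
  · refine ⟨(u.1.val + k) / (w * E) + 1, fun _ => c k,
      Nat.succ_le_succ (Nat.div_le_div_right (by omega)), Nat.succ_le_succ k4, fun s hs => ?_⟩
    obtain ⟨s1, s2⟩ := Cr.win hD hs
    have s3 := ((Nat.div_lt_iff_lt_mul hD).1 (Nat.lt_succ_self _)).le.trans s1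
    have s0 := Nat.div_mul_le_self (u.1.val + k) (w * E)
    exact ⟨Cr.stat G hE hP hp0 hm s0 s3 s2 (C.lev k k2)
      fun a ha y hy => hA.trans_lt (hk a ha y hy), k3,
      exp_of_far fun y hy => hk _ (mem_Ico.2 ⟨s0.trans s3, s2⟩) y hy⟩
  · refine ⟨W, fun s => c (s * E - u.1.val), w1, by omega, fun s hs => ?_⟩
    obtain ⟨k, -, k2, k3, k4, k5⟩ := hW _ (mem_Ico.2 (Cr.win hD hs))
    have l1 := C.lev k k2
    have hκ : 0 ≤ κ := (sum_nonneg fun a _ => (Cr.tch_bd hp0 (c i) a).1).trans (hP.rate 0 _)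
    have : Real.exp (-(2 * κ)) ≤ 1 := Real.exp_le_one_iff.2 (by linarith)
    rw [k3] at l1
    simp only [show s * E - u.1.val = k by omega]
    exact ⟨le_trans (by nlinarith) l1, k4, k5⟩

end Crest.Agent.N337.G1
end

-- ▼ part N337/G1/Route
section

/-!
# Row 337, G1: averages over product sets (leaf G1-Route)

Same proof as `cube`, one coordinate at a time: replace `I a` by `I' a` for `a = 0, 1, 2`; for fixed
other coordinates both averages lie between values of `φ` on the segment, whose oscillation is at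
most the sum of the increments along it; the outer average has at least `s ^ 2` terms.  The edges
`(x + v, x + v + e_a)` used have both end points in `Gd`, and `1 ≤ Jn y (y + e_a)`.
-/

set_option autoImplicit false

namespace Crest.Agent.N337.G1

open Finset Crest.MathPhysics.SpinModel Geo Free

variable {L : ℕ} [NeZero L]

/-- average over the product set `x + ∏ I a`. -/
noncomputable def avP (φ : Tor 3 L → ℝ) (x : Tor 3 L) (I : Fin 3 → Finset ℤ) : ℝ :=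
  (∑ v ∈ Fintype.piFinset I, φ (x + tcast L v)) / ∏ a, ((I a).card : ℝ)

theorem tcast_inj {r : ℕ} (h : 2 * r < L) {v v' : Fin 3 → ℤ} (hv : ∀ a, (v a).natAbs ≤ r)
    (hv' : ∀ a, (v' a).natAbs ≤ r) (e : tcast L v = tcast L v') : v = v' := by
  funext a
  have h1 := hv a
  have h2 := hv' a
  rw [← Cu.val_cast h (t := v a) (Cu.mem_I.2 (by omega)),
    ← Cu.val_cast h (t := v' a) (Cu.mem_I.2 (by omega))]
  exact congrArg ZMod.valMinAbs (congrFun e a)

theorem tdist_tcast (x : Tor 3 L) {r : ℕ} {v : Fin 3 → ℤ} (hv : ∀ a, (v a).natAbs ≤ r) :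
    tdist x (x + tcast L v) ≤ r :=
  tdist_le_iff.2 fun a => le_trans (ZMod.natAbs_min_of_le_div_two L _ (v a) (by simp [tcast])
    (ZMod.natAbs_valMinAbs_le _)) (hv a)

namespace Ro

open Cu

/-- mean over a finite set -/
noncomputable def m (S : Finset ℤ) (f : ℤ → ℝ) : ℝ := (∑ t ∈ S, f t) / S.card

omit [NeZero L] in
theorem avP_eq (φ : Tor 3 L → ℝ) (x : Tor 3 L) (J : Fin 3 → Finset ℤ) :
    avP φ x J = m (J 0) fun a => m (J 1) fun b => m (J 2) fun c => φ (pt x a b c) := by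
  simp only [avP, m, ← sum_div, div_div, Fin.prod_univ_three]
  congr 1
  · simp_rw [← sum_product']
    have e : ∀ v : Fin 3 → ℤ, ![v 0, v 1, v 2] = v := fun v => by funext i; fin_cases i <;> rfl
    refine sum_nbij' (fun v => (v 0, v 1, v 2)) (fun u => ![u.1, u.2.1, u.2.2]) (fun v hv => ?_)
      (fun u hu => ?_) (fun v _ => e v) (fun u _ => rfl) fun v _ => by rw [pt, e]
    · simp only [mem_product]
      exact ⟨Fintype.mem_piFinset.1 hv 0, Fintype.mem_piFinset.1 hv 1, Fintype.mem_piFinset.1 hv 2⟩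
    · simp only [mem_product] at hu
      refine Fintype.mem_piFinset.2 fun i => ?_
      fin_cases i
      exacts [hu.1, hu.2.1, hu.2.2]
  · ring

variable {S S' : Finset ℤ} {f f' g : ℤ → ℝ} {R s : ℕ}

theorem m_le {M : ℝ} (hS : 1 ≤ S.card) (h : ∀ t ∈ S, f t ≤ M) : m S f ≤ M := by
  have := sum_le_card_nsmul _ _ _ h
  rwa [m, div_le_iff₀' (by exact_mod_cast hS), ← nsmul_eq_mul]

theorem le_m {M : ℝ} (hS : 1 ≤ S.card) (h : ∀ t ∈ S, M ≤ f t) : M ≤ m S f := by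
  have := card_nsmul_le_sum _ _ _ h
  rwa [m, le_div_iff₀' (by exact_mod_cast hS), ← nsmul_eq_mul]

/-- the segment spanned by a set -/
def H (U : Finset ℤ) (u : ℤ) : Prop := ∃ s ∈ U, ∃ t ∈ U, s ≤ u ∧ u ≤ t

theorem osc' {U : Finset ℤ} (hU : U ⊆ I R) (hg : ∀ t, 0 ≤ g t)
    (hf : ∀ t, H U t → H U (t + 1) → |f (t + 1) - f t| ≤ g t) {a b : ℤ} (ha : a ∈ U)
    (hb : b ∈ U) : |f a - f b| ≤ ∑ u ∈ I R, g u := by
  wlog h : b ≤ a generalizing a b
  · rw [abs_sub_comm]; exact this hb ha (by omega)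
  have := osc (f := fun u => f (max b (min u a))) (fun t _ => hg t) (fun t _ _ => by
    by_cases e : b ≤ t ∧ t + 1 ≤ a
    · rw [show max b (min (t + 1) a) = t + 1 by omega, show max b (min t a) = t by omega]
      exact hf t ⟨b, hb, a, ha, by omega⟩ ⟨b, hb, a, ha, by omega⟩
    · rw [show max b (min (t + 1) a) = max b (min t a) by omega, sub_self, abs_zero]
      exact hg t) (hU ha) (hU hb)
  rwa [show max b (min a a) = a by omega, show max b (min b a) = b by omega] at this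

theorem line (hS : 1 ≤ S.card) (hS' : 1 ≤ S'.card) (hU : S ∪ S' ⊆ I R) (hg : ∀ t, 0 ≤ g t)
    (hf : ∀ t, H (S ∪ S') t → H (S ∪ S') (t + 1) → |f (t + 1) - f t| ≤ g t) :
    |m S f - m S' f| ≤ ∑ u ∈ I R, g u := by
  rw [abs_sub_le_iff, sub_le_iff_le_add, sub_le_iff_le_add]
  refine ⟨m_le hS fun a ha => ?_, m_le hS' fun a ha => ?_⟩ <;> rw [← sub_le_iff_le_add']
  · refine le_m hS' fun b hb => ?_
    linarith [(abs_le.1 (osc' hU hg hf (mem_union_left _ ha) (mem_union_right _ hb))).2]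
  · refine le_m hS fun b hb => ?_
    linarith [(abs_le.1 (osc' hU hg hf (mem_union_right _ ha) (mem_union_left _ hb))).2]

theorem mean (hs : 1 ≤ s) (hS : s ≤ S.card) (hU : S ⊆ I R) (hg : ∀ t, 0 ≤ g t)
    (hf : ∀ t ∈ S, |f t - f' t| ≤ g t) : |m S f - m S f'| ≤ (∑ u ∈ I R, g u) / s := by
  rw [m, m, ← sub_div, ← sum_sub_distrib, abs_div, Nat.abs_cast]
  exact div_le_div₀ (sum_nonneg fun t _ => hg t) ((abs_sum_le_sum_abs _ _).trans
    ((sum_le_sum hf).trans (sum_le_sum_of_subset_of_nonneg hU fun u _ _ => hg u)))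
    (by exact_mod_cast hs) (by exact_mod_cast hS)

theorem three {J J' : Fin 3 → Finset ℤ} (hs : 1 ≤ s) (hU : ∀ a, J a ∪ J' a ⊆ I R)
    (hc : ∀ a, s ≤ (J a).card ∧ s ≤ (J' a).card) {F D : ℤ → ℤ → ℤ → ℝ} (hD : ∀ a b c, 0 ≤ D a b c)
    (h1 : ∀ b ∈ J' 1, ∀ c ∈ J' 2, ∀ a, H (J 0 ∪ J' 0) a → H (J 0 ∪ J' 0) (a + 1) →
      |F (a + 1) b c - F a b c| ≤ D a b c)
    (h2 : ∀ a ∈ J 0, ∀ c ∈ J' 2, ∀ b, H (J 1 ∪ J' 1) b → H (J 1 ∪ J' 1) (b + 1) →
      |F a (b + 1) c - F a b c| ≤ D a b c)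
    (h3 : ∀ a ∈ J 0, ∀ b ∈ J 1, ∀ c, H (J 2 ∪ J' 2) c → H (J 2 ∪ J' 2) (c + 1) →
      |F a b (c + 1) - F a b c| ≤ D a b c) :
    |m (J 0) (fun a => m (J 1) fun b => m (J 2) (F a b)) -
        m (J' 0) (fun a => m (J' 1) fun b => m (J' 2) (F a b))| ≤
      3 / (s : ℝ) ^ 2 * ∑ a ∈ I R, ∑ b ∈ I R, ∑ c ∈ I R, D a b c := by
  have p : (0 : ℝ) < s := by exact_mod_cast hs
  have u : ∀ a, J a ⊆ I R := fun a => subset_union_left.trans (hU a)
  have u' : ∀ a, J' a ⊆ I R := fun a => subset_union_right.trans (hU a)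
  have c : ∀ a, 1 ≤ (J a).card := fun a => hs.trans (hc a).1
  have c' : ∀ a, 1 ≤ (J' a).card := fun a => hs.trans (hc a).2
  have s1 : ∀ a b, 0 ≤ ∑ c ∈ I R, D a b c := fun a b => sum_nonneg fun c _ => hD a b c
  have e1 := mean (f := fun a => m (J 1) fun b => m (J 2) (F a b))
    (f' := fun a => m (J 1) fun b => m (J' 2) (F a b)) hs (hc 0).1 (u 0)
    (fun a => div_nonneg (sum_nonneg fun b _ => s1 a b) p.le) fun a ha =>
    mean hs (hc 1).1 (u 1) (s1 a) fun b hb => line (c 2) (c' 2) (hU 2) (hD a b) (h3 a ha b hb)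
  have e2 := mean (f := fun a => m (J 1) fun b => m (J' 2) (F a b))
    (f' := fun a => m (J' 1) fun b => m (J' 2) (F a b)) hs (hc 0).1 (u 0)
    (fun a => sum_nonneg fun b _ => div_nonneg (s1 a b) p.le) fun a ha =>
    line (c 1) (c' 1) (hU 1) (fun b => div_nonneg (s1 a b) p.le) fun b hb hb' =>
      mean hs (hc 2).2 (u' 2) (hD a b) fun c hc => h2 a ha c hc b hb hb'
  have e3 := line (f := fun a => m (J' 1) fun b => m (J' 2) (F a b)) (c 0) (c' 0) (hU 0)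
    (fun a => div_nonneg (sum_nonneg fun b _ => div_nonneg (s1 a b) p.le) p.le) fun a ha ha' =>
    mean hs (hc 1).2 (u' 1) (fun b => div_nonneg (s1 a b) p.le) fun b hb =>
      mean hs (hc 2).2 (u' 2) (hD a b) fun c hc => h1 b hb c hc a ha ha'
  simp only [← sum_div] at e1 e2 e3
  refine (abs_sub_le _ _ _).trans ((add_le_add ((abs_sub_le _ _ _).trans (add_le_add e1 e2))
    e3).trans (le_of_eq ?_))
  field_simp
  ring

theorem m_shift (d : ℤ) (r : ℕ) (f : ℤ → ℝ) :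
    m (Icc (d - r) (d + r)) f = Cu.m r fun t => f (d + t) := by
  rw [sub_eq_add_neg, ← map_add_left_Icc, m, sum_map, card_map, Cu.m, ← I, card_I]
  push_cast
  rfl

end Ro

/-- a ball is a product set seen from any base point. -/
theorem av_eq_avP (φ : Tor 3 L → ℝ) (x z : Tor 3 L) {r : ℕ} (h : 2 * r < L) :
    av φ z r = avP φ x fun a => Icc ((z a - x a).valMinAbs - r) ((z a - x a).valMinAbs + r) := by
  rw [Cu.av_eq φ z h, Ro.avP_eq]
  simp only [Ro.m_shift]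
  congr 1 with a
  congr 1 with b
  congr 1 with c
  congr 1
  funext i
  fin_cases i <;> simp [Cu.pt, tcast, ← add_assoc]

theorem cubeP (φ : Tor 3 L → ℝ) (x : Tor 3 L) {I I' : Fin 3 → Finset ℤ} {r s : ℕ}
    (hr : 2 * r < L) (hs : 1 ≤ s) (hI : ∀ a, ∀ t ∈ I a ∪ I' a, t.natAbs ≤ r)
    (hc : ∀ a, s ≤ (I a).card ∧ s ≤ (I' a).card) (Gd : Finset (Tor 3 L))
    (hG : ∀ (a : Fin 3) (v : Fin 3 → ℤ), (∀ a', a' ≠ a → v a' ∈ I a' ∪ I' a') →
      (∃ s ∈ I a ∪ I' a, ∃ t ∈ I a ∪ I' a, s ≤ v a ∧ v a ≤ t) → x + tcast L v ∈ Gd) :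
    |avP φ x I - avP φ x I'| ≤
      3 / (s : ℝ) ^ 2 * ∑ y ∈ Gd, ∑ y' ∈ Gd, Jn L y y' * |φ y - φ y'| := by
  have nn : ∀ y y', 0 ≤ Jn L y y' * |φ y - φ y'| := fun y y' =>
    mul_nonneg (Cu.Jn_nonneg y y') (abs_nonneg _)
  set D : Tor 3 L → ℝ := fun y => if y ∈ Gd then ∑ y' ∈ Gd, Jn L y y' * |φ y - φ y'| else 0 with hD
  have key : ∀ (y y' : Tor 3 L) (u : Fin 3 → ℤ), ∑ a, |u a| = 1 → y' = y + tcast L u → y ∈ Gd →
      y' ∈ Gd → |φ y' - φ y| ≤ D y := fun y y' u hu e hy hy' => by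
    refine le_trans ?_ ((single_le_sum (fun y' _ => nn y y') hy').trans_eq (if_pos hy).symm)
    rw [abs_sub_comm]
    exact le_mul_of_one_le_left (abs_nonneg _) (e ▸ Cu.one_le_J y hu)
  have g0 : ∀ a b c, b ∈ I 1 ∪ I' 1 → c ∈ I 2 ∪ I' 2 → Ro.H (I 0 ∪ I' 0) a → Cu.pt x a b c ∈ Gd :=
    fun a b c hb hc h => hG 0 ![a, b, c]
      (fun i hi => by fin_cases i; exacts [(hi rfl).elim, hb, hc]) h
  have g1 : ∀ a b c, a ∈ I 0 ∪ I' 0 → c ∈ I 2 ∪ I' 2 → Ro.H (I 1 ∪ I' 1) b → Cu.pt x a b c ∈ Gd :=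
    fun a b c ha hc h => hG 1 ![a, b, c]
      (fun i hi => by fin_cases i; exacts [ha, (hi rfl).elim, hc]) h
  have g2 : ∀ a b c, a ∈ I 0 ∪ I' 0 → b ∈ I 1 ∪ I' 1 → Ro.H (I 2 ∪ I' 2) c → Cu.pt x a b c ∈ Gd :=
    fun a b c ha hb h => hG 2 ![a, b, c]
      (fun i hi => by fin_cases i; exacts [ha, hb, (hi rfl).elim]) h
  rw [Ro.avP_eq, Ro.avP_eq]
  refine (Ro.three (R := r) (D := fun a b c => D (Cu.pt x a b c)) hs
    (fun a t ht => Cu.mem_I.2 (by have := hI a t ht; omega)) hc (fun a b c => ?_)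
    (fun b hb c hc a h h' => ?_) (fun a ha c hc b h h' => ?_) fun a ha b hb c h h' => ?_).trans
    (mul_le_mul_of_nonneg_left ?_ (by positivity))
  · simp only [hD]
    split_ifs
    exacts [sum_nonneg fun y _ => nn _ y, le_rfl]
  · refine key _ _ ![1, 0, 0] (by simp [Fin.sum_univ_three]) ?_
      (g0 _ _ _ (mem_union_right _ hb) (mem_union_right _ hc) h)
      (g0 _ _ _ (mem_union_right _ hb) (mem_union_right _ hc) h')
    funext i; fin_cases i <;> simp [Cu.pt, tcast, add_assoc]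
  · refine key _ _ ![0, 1, 0] (by simp [Fin.sum_univ_three]) ?_
      (g1 _ _ _ (mem_union_left _ ha) (mem_union_right _ hc) h)
      (g1 _ _ _ (mem_union_left _ ha) (mem_union_right _ hc) h')
    funext i; fin_cases i <;> simp [Cu.pt, tcast, add_assoc]
  · refine key _ _ ![0, 0, 1] (by simp [Fin.sum_univ_three]) ?_
      (g2 _ _ _ (mem_union_left _ ha) (mem_union_left _ hb) h)
      (g2 _ _ _ (mem_union_left _ ha) (mem_union_left _ hb) h')
    funext i; fin_cases i <;> simp [Cu.pt, tcast, add_assoc]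
  · rw [← Cu.sum_bl D x hr, hD, sum_ite_mem]
    exact sum_le_sum_of_subset_of_nonneg inter_subset_right fun y _ _ =>
      sum_nonneg fun y' _ => nn y y'

end Crest.Agent.N337.G1
end

-- ▼ part N337/G1/Ray
section

/-!
# Row 337, G1 (helper9): free rays

If at most five points of `U0` lie within `A` of `z ∉ U0`, one of the six axis rays from `z` misses
`U0`, and some point of the ray is farther than `ρ` from `U0`.
-/

set_option autoImplicit false

namespace Crest.Agent.N337.G1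

open Finset Crest.MathPhysics.SpinModel Geo Free

variable {L : ℕ} [NeZero L]

/-- the axis direction `± e_a`. -/
def dir (a : Fin 3 × Bool) : Fin 3 → ℤ := Pi.single a.1 (if a.2 then 1 else -1)

theorem dir_sum (a : Fin 3 × Bool) : ∑ b, |dir a b| = 1 := by
  obtain ⟨a, s⟩ := a
  fin_cases a <;> cases s <;> simp [dir, Fin.sum_univ_three]

theorem dir_abs (a : Fin 3 × Bool) (i : ℕ) (b : Fin 3) : (((i : ℤ) • dir a) b).natAbs ≤ i := by
  obtain ⟨a, s⟩ := a
  by_cases h : b = a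
  · subst h; cases s <;> simp [dir]
  · simp [dir, h]

theorem dir_inj {a a' : Fin 3 × Bool} {i i' : ℕ} (hi : 1 ≤ i) (hi' : 1 ≤ i')
    (h : (i : ℤ) • dir a = (i' : ℤ) • dir a') : a = a' := by
  obtain ⟨a, s⟩ := a
  obtain ⟨a', s'⟩ := a'
  have h1 := congrFun h a
  by_cases e : a = a'
  · subst e
    cases s <;> cases s' <;> simp [dir] at h1 ⊢ <;> omega
  · cases s <;> simp [dir, e] at h1 <;> omega

theorem tdist_dir (z : Tor 3 L) (a : Fin 3 × Bool) {i r : ℕ} (hi : i ≤ r) (h : 2 * r < L) :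
    tdist z (z + tcast L ((i : ℤ) • dir a)) = i := by
  refine le_antisymm (tdist_tcast z (dir_abs a i)) ?_
  refine le_trans (le_of_eq ?_) (le_sup (f := fun b : Fin 3 =>
    (((z + tcast L ((i : ℤ) • dir a)) b - z b).valMinAbs).natAbs) (mem_univ a.1))
  have := dir_abs a i a.1
  simp only [Pi.add_apply, add_sub_cancel_left, tcast]
  rw [Cu.val_cast h (Cu.mem_I.2 (by omega))]
  obtain ⟨a, s⟩ := a
  cases s <;> simp [dir]

/-- a free ray with a far end point. -/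
theorem ray {U0 : Finset (Tor 3 L)} {z : Tor 3 L} {A ρ : ℕ} (hz : z ∉ U0)
    (h5 : (U0 ∩ bl z A).card ≤ 5) (hA : 11 * ρ + 6 ≤ A) (hL : 2 * A < L) :
    ∃ (e : ℕ → Tor 3 L) (t : ℕ), t ≤ A ∧ e 0 = z ∧ (∀ i ≤ A, e i ∉ U0 ∧ tdist z (e i) = i) ∧
      (∀ i, 1 ≤ Jn L (e i) (e (i + 1))) ∧ ∀ v ∈ U0, ρ < tdist v (e t) := by
  classical
  have z0 : ∀ a, z + tcast L (((0 : ℕ) : ℤ) • dir a) = z := fun a => by
    funext b; simp [tcast]
  obtain ⟨a, ha⟩ : ∃ a : Fin 3 × Bool, ∀ i ≤ A, z + tcast L ((i : ℤ) • dir a) ∉ U0 := by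
    by_contra! hc
    choose i hi hU using hc
    have i1 : ∀ a, 1 ≤ i a := fun a => Nat.pos_of_ne_zero fun e => hz (by
      have := hU a; rwa [e, z0] at this)
    have := card_le_card_of_injOn (s := (univ : Finset (Fin 3 × Bool))) (t := U0 ∩ bl z A)
      (fun a => z + tcast L ((i a : ℤ) • dir a))
      (fun a _ => mem_coe.2 (mem_inter.2 ⟨hU a, mem_bl.2 ((tdist_dir z a (hi a) hL).trans_le (hi a))⟩))
      fun a _ a' _ e => dir_inj (i1 a) (i1 a') (tcast_inj hL (fun b => (dir_abs _ _ b).trans (hi a))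
        (fun b => (dir_abs _ _ b).trans (hi a')) (add_left_cancel e))
    simp at this
    omega
  set e : ℕ → Tor 3 L := fun i => z + tcast L ((i : ℤ) • dir a) with he
  have hd : ∀ i ≤ A, tdist z (e i) = i := fun i hi => tdist_dir z a hi hL
  obtain ⟨ι, hι, hf⟩ : ∃ ι ≤ 5, ∀ v ∈ U0 ∩ bl z A, ρ < tdist v (e (ι * (2 * ρ + 1))) := by
    by_contra! hc
    refine Cr.pig (M := 2 * ρ + 1) h5 (fun v t => t ≤ A ∧ tdist v (e t) ≤ ρ) (fun ι hι => ?_) ?_
    · obtain ⟨v, hv, h⟩ := hc ι hι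
      exact ⟨v, hv, (Nat.mul_le_mul_right _ hι).trans (by omega), h⟩
    · rintro v t t' ⟨a1, a2⟩ ⟨b1, b2⟩
      have := tdist_triangle z (e t) (e t')
      have := tdist_triangle (e t) v (e t')
      rw [tdist_comm] at a2
      have := hd t a1
      have := hd t' b1
      omega
  have ht := Nat.mul_le_mul_right (2 * ρ + 1) hι
  refine ⟨e, ι * (2 * ρ + 1), by omega, z0 a, fun i hi => ⟨ha i hi, hd i hi⟩, fun i => ?_,
    fun v hv => ?_⟩
  · have : e (i + 1) = e i + tcast L (dir a) := by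
      funext b; simp [he, tcast, add_mul, add_assoc]
    rw [this]
    exact Cu.one_le_J _ (dir_sum a)
  · by_contra! hc
    have := hf v (mem_inter.2 ⟨hv, mem_bl.2 ?_⟩)
    · omega
    have := tdist_triangle z (e (ι * (2 * ρ + 1))) v
    rw [tdist_comm] at hc
    have := hd (ι * (2 * ρ + 1)) (by omega)
    omega

end Crest.Agent.N337.G1
end

-- ▼ part N337/G1/Tube
section

/-!
# Row 337, G1 (helper9): walls, top averages, steps along a tube, energy of rays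
-/

set_option autoImplicit false

namespace Crest.Agent.N337.G1

open Finset Crest.MathPhysics.SpinModel Geo Free

variable {L : ℕ} [NeZero L]

theorem En_nonneg (V : Finset (Tor 3 L)) {w : Tor 3 L → ℝ} (hw : ∀ y, 1 ≤ w y) (φ : Tor 3 L → ℝ) :
    0 ≤ En (Jn L) V w φ := sum_nonneg fun x _ => sum_nonneg fun y _ => by
  split_ifs
  exacts [div_nonneg (mul_nonneg (Cu.Jn_nonneg x y) (sq_nonneg _))
    (zero_le_one.trans ((hw x).trans (le_max_left _ _))), le_rfl]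

theorem En_min (V : Finset (Tor 3 L)) {w : Tor 3 L → ℝ} (hw : ∀ y, 1 ≤ w y) (φ : Tor 3 L → ℝ)
    (t : ℝ) : En (Jn L) V w (fun y => min (φ y) t) ≤ En (Jn L) V w φ := by
  refine sum_le_sum fun x _ => sum_le_sum fun y _ => ?_
  split_ifs
  · refine div_le_div_of_nonneg_right (mul_le_mul_of_nonneg_left (sq_le_sq.2 ?_)
      (Cu.Jn_nonneg x y)) (zero_le_one.trans ((hw x).trans (le_max_left _ _)))
    simpa using abs_min_sub_min_le_max (φ x) t (φ y) t
  · exact le_rfl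

/-- a residual set is a set of huge weight. -/
theorem wall (V : Finset (Tor 3 L)) {w : Tor 3 L → ℝ} (hw : ∀ y, 1 ≤ w y) (φ : Tor 3 L → ℝ)
    {ε : ℝ} (hε : 0 < ε) : ∃ w' : Tor 3 L → ℝ, (∀ y, 1 ≤ w' y) ∧ (∀ y ∉ V, w' y = w y) ∧
      En (Jn L) ∅ w' φ ≤ En (Jn L) V w φ + ε := by
  obtain ⟨S, hS⟩ : ∃ S, S = ∑ x, ∑ y, Jn L x y * (φ x - φ y) ^ 2 := ⟨_, rfl⟩
  have nn : ∀ x y, 0 ≤ Jn L x y * (φ x - φ y) ^ 2 := fun x y =>
    mul_nonneg (Cu.Jn_nonneg x y) (sq_nonneg _)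
  have S0 : 0 ≤ S := hS ▸ sum_nonneg fun x _ => sum_nonneg fun y _ => nn x y
  have M1 : 1 ≤ 1 + S / ε := le_add_of_nonneg_right (by positivity)
  have hM : S / (1 + S / ε) ≤ ε := by
    rw [div_le_iff₀ (by positivity), mul_add, mul_div_cancel₀ _ hε.ne']; linarith
  generalize 1 + S / ε = M at M1 hM
  refine ⟨fun y => if y ∈ V then M else w y, fun y => by dsimp only; split_ifs; exacts [M1, hw y],
    fun y hy => if_neg hy, le_trans ?_ (add_le_add_right hM _)⟩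
  simp only [En, hS, sum_div, ← sum_add_distrib]
  refine sum_le_sum fun x _ => sum_le_sum fun y _ => ?_
  have := div_nonneg (nn x y) (zero_le_one.trans M1)
  by_cases h : x ∉ V ∧ y ∉ V
  · simpa [h.1, h.2] using this
  · rw [if_neg h, zero_add, if_pos (by simp)]
    refine div_le_div_of_nonneg_left (nn x y) (by linarith) ?_
    rcases not_and_or.1 h with h | h <;> simp [not_not.1 h]

open Classical in
theorem av_le {Good : Finset (Tor 3 L)} {φ ψ : Tor 3 L → ℝ} {lam : ℝ} (hl : 0 ≤ lam)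
    (h1 : ∀ y, φ y ≤ lam) (h2 : ∀ y ∈ Good, φ y ≤ ψ y) {z : Tor 3 L} {r : ℕ}
    (h : (2 * ((bl z r).filter fun y => y ∉ Good ∨ ψ y ≠ 0).card : ℝ) ≤ (2 * (r : ℝ) + 1) ^ 3) :
    av φ z r ≤ lam / 2 := by
  have h3 : ∑ y ∈ bl z r, φ y ≤ ((bl z r).filter fun y => y ∉ Good ∨ ψ y ≠ 0).card * lam := by
    rw [← nsmul_eq_mul, ← sum_const, sum_filter]
    refine sum_le_sum fun y _ => ?_
    split_ifs with h
    · exact h1 y
    · push Not at h
      exact (h2 y h.1).trans h.2.le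
  rw [av, div_le_iff₀ (by positivity)]
  nlinarith

/-- one step along a tube. -/
theorem tstep {w : Tor 3 L → ℝ} (hw : ∀ y, 1 ≤ w y) (φ : Tor 3 L → ℝ) {c z z' : Tor 3 L}
    {r s s' : ℕ} (hL : 2 * r < L) (h : tdist c z + s ≤ r) (h' : tdist c z' + s' ≤ r)
    (k : r ≤ 32 * s) (k' : r ≤ 32 * s') {W : ℝ} (hW : ∀ y ∈ bl c r, w y ≤ W) :
    |av φ z s - av φ z' s'| ≤ 11000 * √(W / (2 * (r : ℝ) + 1)) * √(En (Jn L) ∅ w φ) := by
  have W1 : 1 ≤ W := (hw c).trans (hW c (mem_bl.2 (by simp [tdist_self])))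
  have E0 := En_nonneg ∅ hw φ
  have b : ∀ {z : Tor 3 L} {s : ℕ}, tdist c z + s ≤ r → ∀ a, ∀ t ∈ Icc ((z a - c a).valMinAbs - s)
      ((z a - c a).valMinAbs + s), t.natAbs ≤ r := fun {z s} h a t ht => by
    have := tdist_le_iff.1 (le_refl (tdist c z)) a
    rw [mem_Icc] at ht
    omega
  have b2 := fun a t (ht : t ∈ _ ∪ _) => (mem_union.1 ht).elim (b h a t) (b h' a t)
  rw [av_eq_avP φ c z (by omega), av_eq_avP φ c z' (by omega)]
  refine (cubeP φ c (s := 2 * min s s' + 1) hL (by omega) b2 (fun a => ?_) (bl c r)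
    fun a v h1 ⟨t, ht, t', ht', h2⟩ => mem_bl.2 (tdist_tcast c fun a' => ?_)).trans ?_
  · simp only [Int.card_Icc]; omega
  · by_cases e : a' = a
    · subst e
      have := b2 _ _ ht
      have := b2 _ _ ht'
      omega
    · exact b2 _ _ (h1 a' e)
  have h2 := Cu.scale (A := {c}) (φ := φ) hw (r := r) (N := 1) (V := W * (2 * (r : ℝ) + 1) ^ 3)
    (fun p => by exact_mod_cast (card_filter_le _ _).trans (card_singleton c).le) fun y hy => by
      rw [mem_singleton.1 hy]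
      refine (sum_le_card_nsmul _ _ _ hW).trans ?_
      rw [card_bl_eq c hL, nsmul_eq_mul]; push_cast; linarith
  rw [sum_singleton, card_singleton] at h2
  have r1 : 2 * (r : ℝ) + 1 ≤ 32 * ((2 * min s s' + 1 : ℕ) : ℝ) := by
    exact_mod_cast (by omega : 2 * r + 1 ≤ 32 * (2 * min s s' + 1))
  have r0 : (0 : ℝ) < 2 * r + 1 := by positivity
  generalize 2 * (r : ℝ) + 1 = ρ at h2 r1 r0 ⊢
  generalize ((2 * min s s' + 1 : ℕ) : ℝ) = σ at r1 ⊢
  have s0 : 0 < σ := by linarith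
  refine abs_le_of_sq_le_sq' ?_ (by positivity) |>.2
  rw [mul_pow, mul_pow, mul_pow, Real.sq_sqrt E0, Real.sq_sqrt (by positivity)]
  refine (mul_le_mul_of_nonneg_left h2 (sq_nonneg _)).trans ?_
  have r4 : ρ ^ 4 ≤ (32 * σ) ^ 4 := by gcongr
  have : (3 / σ ^ 2) ^ 2 * (12 * ρ ^ 3) ≤ 11000 ^ 2 / ρ := by
    rw [div_pow, div_mul_eq_mul_div, div_le_div_iff₀ (by positivity) r0]
    nlinarith [pow_pos s0 4]
  calc _ = (3 / σ ^ 2) ^ 2 * (12 * ρ ^ 3) * (W * En (Jn L) ∅ w φ) := by push_cast; ring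
    _ ≤ 11000 ^ 2 / ρ * (W * En (Jn L) ∅ w φ) := by gcongr
    _ = _ := by ring

omit [NeZero L] in
theorem fin_alg {n N lam a b W E : ℝ} (hn : 0 ≤ n) (hN : n ≤ N) (hl : 0 ≤ lam) (hW : 0 ≤ W)
    (hE : 0 ≤ E) (h : n * (lam / 2) ≤ a * √(W * n * E) + n * (b * √E)) :
    lam ^ 2 * n ≤ 8 * (a ^ 2 * W + N * b ^ 2) * E := by
  rcases hn.eq_or_lt with rfl | n0
  · rw [mul_zero]; positivity
  have h1 := pow_le_pow_left₀ (by positivity) h 2
  have h2 : (a * √(W * n * E)) ^ 2 = n * (a ^ 2 * W * E) := by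
    rw [mul_pow, Real.sq_sqrt (by positivity)]; ring
  have h3 : (n * (b * √E)) ^ 2 ≤ n * (N * b ^ 2 * E) := by
    rw [mul_pow, mul_pow, Real.sq_sqrt hE, sq, mul_assoc, mul_assoc N]; gcongr
  refine le_of_mul_le_mul_left ?_ n0
  nlinarith [sq_nonneg (a * √(W * n * E) - n * (b * √E))]

/-- energy of disjoint rays. -/
theorem rays {U0 S : Finset (Tor 3 L)} (ψ : Tor 3 L → ℝ) {A : ℕ} (e : Tor 3 L → ℕ → Tor 3 L)
    (t : Tor 3 L → ℕ) (ht : ∀ z ∈ S, t z ≤ A) (hU : ∀ z ∈ S, ∀ i ≤ A, e z i ∉ U0)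
    (hJ : ∀ z ∈ S, ∀ i, 1 ≤ Jn L (e z i) (e z (i + 1)))
    (inj : ∀ z ∈ S, ∀ z' ∈ S, ∀ i ≤ A, ∀ i' ≤ A, e z i = e z' i' → z = z' ∧ i = i') :
    ∑ z ∈ S, (ψ (e z 0) - ψ (e z (t z))) ^ 2 ≤ A * En (Jn L) U0 1 ψ := by
  have h1 : ∀ z ∈ S, (ψ (e z 0) - ψ (e z (t z))) ^ 2 ≤
      A * ∑ i ∈ range A, (ψ (e z i) - ψ (e z (i + 1))) ^ 2 := fun z hz => by
    rw [← sum_range_sub' fun i => ψ (e z i)]
    refine sq_sum_le_card_mul_sum_sq.trans (mul_le_mul ?_ (sum_le_sum_of_subset_of_nonneg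
      (range_mono (ht z hz)) fun _ _ _ => sq_nonneg _) (sum_nonneg fun _ _ => sq_nonneg _)
      (Nat.cast_nonneg _))
    rw [card_range]; exact_mod_cast ht z hz
  refine (sum_le_sum h1).trans ?_
  rw [← mul_sum, ← sum_product']
  refine mul_le_mul_of_nonneg_left ?_ (Nat.cast_nonneg _)
  have nn : ∀ x y, 0 ≤ if x ∉ U0 ∧ y ∉ U0 then Jn L x y * (ψ x - ψ y) ^ 2 /
      max ((1 : Tor 3 L → ℝ) x) ((1 : Tor 3 L → ℝ) y) else 0 := fun x y => by
    split_ifs
    exacts [div_nonneg (mul_nonneg (Cu.Jn_nonneg x y) (sq_nonneg _)) (by simp), le_rfl]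
  refine le_trans (sum_le_sum fun u hu => ?_) ((sum_image (s := S ×ˢ range A)
    (g := fun u => e u.1 u.2) (f := fun x => ∑ y, if x ∉ U0 ∧ y ∉ U0 then Jn L x y *
      (ψ x - ψ y) ^ 2 / max ((1 : Tor 3 L → ℝ) x) ((1 : Tor 3 L → ℝ) y) else 0)
    fun u hu u' hu' h => ?_).ge.trans (sum_le_univ_sum_of_nonneg fun x => sum_nonneg fun y _ => nn x y))
  · obtain ⟨u1, u2⟩ := mem_product.1 hu
    rw [mem_range] at u2
    refine le_trans ?_ (single_le_sum (fun y _ => nn _ y) (mem_univ (e u.1 (u.2 + 1))))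
    rw [if_pos ⟨hU _ u1 _ u2.le, hU _ u1 _ u2⟩]
    simpa using le_mul_of_one_le_left (sq_nonneg _) (hJ _ u1 _)
  · obtain ⟨u1, u2⟩ := mem_product.1 (mem_coe.1 hu)
    obtain ⟨u3, u4⟩ := mem_product.1 (mem_coe.1 hu')
    have := inj _ u1 _ u3 _ (mem_range.1 u2).le _ (mem_range.1 u4).le h
    exact Prod.ext this.1 this.2

end Crest.Agent.N337.G1
end

-- ▼ part N337/G1/Expo
section

/-!
# Row 337, G1: exposures bound the level (leaf G1-Expo)

Assume `μ < lam`.  `S0 = {x | ¬ Leaf x}`.  A sweep `i < B w` is GOOD if `i ∉ Bd`, the source is not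
reached in it, and no step of it has `Ch` at a slot within `4 η 0` of a leaf site; every window has
`≥ w/2` good sweeps (`Leaf.chg`, `hw`).  In a good sweep and a layer `c`: `U' = update U 0 (S0 ∪ red
sites of layer c at step i E)`, `fill`, `ψ y = tr lam (h (tm (iE), (y,c)))`, `cap` with
`W = 2 K (m1-1)` (`Fm_card`, `Clean`), `A` = exposed sites of that layer and sweep (they are in
`Good` by `Exp`, `Geom.hA`), top: `Fm_card` (quarter) + `top` (quarter).  Freezing: for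
`y ∉ U' 0` the slot is green during the sweep, it is in `Z` (`h = 0`) or sees free steps and pinned
steps with `p = 0`, so `|h (k) - h (iE)| ≤ κ q / (1-Y)` (`Grn.step_abs`); with `Clock.edge`,
`q ∑_c En ≤ 8 (energy of the sweep) + 48 q (κ q/(1-Y))^2 L^3 n`.  Sum over the good sweeps,
`Grn.energy`: `lam^2 N w / 2 ≤ 10^6 W (1+log)^2 (8 lam + err) / q`, and `x^2 ≤ a (x + e)` gives
`x ≤ a + e`.
-/

set_option autoImplicit false

namespace Crest.Agent.N337.G1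

open Finset Crest.MathPhysics.SpinModel Geo Free KV

variable {L : ℕ} [NeZero L] {n T : ℕ} [NeZero T] {ex ey : Fin T → Tor 3 L × Fin n}
  {p p0 b0 : Fin T → ℝ} {b g : Fin T × (Tor 3 L × Fin n) → ℝ} {u : Fin T × (Tor 3 L × Fin n)}
  {Y q κ : ℝ} {R : Finset (Fin T × (Tor 3 L × Fin n))} {Z : Finset (Tor 3 L)} {E w B : ℕ}
  {Bd : Finset ℕ} {P : Scales} {U : ℕ → Finset (Tor 3 L)} {j A : ℕ}

namespace Ex

theorem geo (M : ℕ) : ∑ m ∈ range M, (1 / 2 ^ (m + 3) : ℝ) ≤ 1 / 4 := by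
  have : ∑ m ∈ range M, (1 / 2 ^ (m + 3) : ℝ) = 1 / 4 - 1 / 2 ^ (M + 2) := by
    induction M with
    | zero => norm_num
    | succ M ih => rw [sum_range_succ, ih]; field_simp; ring
  rw [this]
  exact sub_le_self _ (by positivity)

theorem fm_sum (hP : P.Ok L) (hc : ∀ m < P.mt, CovIn P U m) (z : Tor 3 L) (r : ℕ) (S : Finset ℕ)
    (hS : ∀ m ∈ S, m < P.mt ∧ (P.η m ≤ r ∨ ∀ y ∈ Fm P U m, y ∉ bl z r)) :
    ∑ m ∈ S, P.K m * ((Fm P U m ∩ bl z r).card : ℝ) ≤ (2 * (r : ℝ) + 1) ^ 3 / 4 := by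
  refine (sum_le_sum (g := fun m => (2 * (r : ℝ) + 1) ^ 3 * (1 / 2 ^ (m + 3))) fun m hm => ?_).trans ?_
  · rcases (hS m hm).2 with h | h
    · rw [mul_one_div, le_div_iff₀ (by positivity), mul_comm, ← mul_assoc]
      exact Fm_card' hP (hS m hm).1 (hc m (hS m hm).1) z h
    · rw [eq_empty_of_forall_notMem fun y hy => h y (mem_inter.1 hy).1 (mem_inter.1 hy).2]
      simp only [card_empty, Nat.cast_zero, mul_zero]; positivity
  · rw [← mul_sum, div_eq_mul_one_div _ (4 : ℝ)]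
    exact mul_le_mul_of_nonneg_left ((sum_le_sum_of_subset_of_nonneg
      (fun m hm => mem_range.2 (hS m hm).1) fun _ _ _ => by positivity).trans (geo _)) (by positivity)

omit [NeZero L] in
theorem tS_le (hP : P.Ok L) : 2 * tS ≤ P.η 0 := by
  have h1 := hP.ρη 0 hP.pos
  have h2 : 1 * (2 * tS + P.σ 0) ≤ 3 ^ P.a 0 * (2 * tS + P.σ 0) :=
    Nat.mul_le_mul_right _ (Nat.one_le_pow _ _ (by norm_num))
  unfold Scales.ρ at h1
  omega

variable (ex ey p R P) in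
open Classical in
/-- junk sites and red sites of the layer `c` at the time `s`. -/
noncomputable def U0 (D j : ℕ) (s : Fin T) (c : Fin n) : Finset (Tor 3 L) :=
  univ.filter fun y => ¬Leaf ex ey p R D (P.a 0) j (4 * P.η 0) y ∨ (s, (y, c)) ∈ R

theorem mem_U0 {D : ℕ} {s : Fin T} {c : Fin n} {y : Tor 3 L} : y ∈ U0 ex ey p R P D j s c ↔
    ¬Leaf ex ey p R D (P.a 0) j (4 * P.η 0) y ∨ (s, (y, c)) ∈ R := by simp [U0]

variable (ex ey p R P U) in
/-- the junk sets with the level `0` of the layer `c` at the time `s`. -/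
noncomputable def VV (D j : ℕ) (s : Fin T) (c : Fin n) : ℕ → Finset (Tor 3 L) :=
  Function.update U 0 (U0 ex ey p R P D j s c)

section VV
variable {D : ℕ} {s : Fin T} {c : Fin n}

theorem VV_zero : VV ex ey p R P U D j s c 0 = U0 ex ey p R P D j s c := Function.update_self _ _ _

theorem VV_pos {m : ℕ} (hm : 1 ≤ m) : VV ex ey p R P U D j s c m = U m :=
  Function.update_of_ne (by omega) _ _

theorem Fm_VV {m : ℕ} (hm : 1 ≤ m) : Fm P (VV ex ey p R P U D j s c) m = Fm P U m := by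
  ext y; rw [mem_Fm, mem_Fm, VV_pos hm, VV_pos (by omega)]

theorem VV_top (hG : Geom ex ey p R P U D j A) : VV ex ey p R P U D j s c P.mt = U P.mt :=
  VV_pos hG.ok.pos

theorem VV_red (hG : Geom ex ey p R P U D j A) {v y : Tor 3 L} (hv : v ∉ VV ex ey p R P U D j s c 1)
    (hy : y ∈ VV ex ey p R P U D j s c 0) (e : tdist v y ≤ 4 * P.η 0) : (s, (y, c)) ∈ R :=
  (mem_U0.1 (by rwa [VV_zero] at hy)).resolve_left
    (not_not.2 (hG.leaf v (by rwa [VV_pos le_rfl] at hv) y e))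

theorem VV_cov (hG : Geom ex ey p R P U D j A) {m : ℕ} (hm : m < P.mt) :
    CovIn P (VV ex ey p R P U D j s c) m := by
  classical
  rcases m.eq_zero_or_pos with rfl | h0
  · intro v _ hv
    refine ⟨(VV ex ey p R P U D j s c 0).filter fun y => tdist v y ≤ 4 * P.η 0, le_trans ?_
      ((hG.leaf v (by rwa [zero_add, VV_pos le_rfl] at hv) v (by simp [tdist_self])).cnt s),
      fun y hy e => ⟨y, mem_filter.2 ⟨hy, e⟩, by simp [tdist_self]⟩⟩
    exact card_le_card_of_injOn (fun y => (y, c)) (fun y hy => by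
      have := mem_filter.1 (mem_coe.1 hy)
      simpa using ⟨VV_red hG hv this.1 this.2, this.2⟩) fun _ _ _ _ e => congrArg Prod.fst e
  · have := hG.cov m h0 hm
    unfold CovIn at this ⊢
    rwa [VV_pos h0, VV_pos (by omega)]

/-- the filling of a layer; sites off the filled cubes and far from `U0` are good. -/
theorem VV_fill (hG : Geom ex ey p R P U D j A) (s : Fin T) (c : Fin n) :
    ∃ (V Good : Finset (Tor 3 L)) (wt : Tor 3 L → ℝ), V ⊆ U P.mt ∧
      St (Jn L) (U0 ex ey p R P D j s c) V Good wt ∧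
      (∀ y ∉ Good, ∃ m < P.mt, y ∈ Fm P (VV ex ey p R P U D j s c) m) ∧
      ∀ x, wt x = 1 ∨ ∃ m < P.mt, x ∈ Fm P (VV ex ey p R P U D j s c) m ∧ wt x ≤ P.K m := by
  obtain ⟨V, Good, wt, hV, hSt, hGood, hwt⟩ := fill' hG.ok fun m hm => VV_cov (s := s) (c := c) hG hm
  rw [VV_zero] at hSt
  refine ⟨V, Good, wt, VV_top hG ▸ hV, hSt, fun y hy => ?_, hwt⟩
  rcases hGood y hy with ⟨m, -, m1, hm⟩ | ⟨v, v0, v1, e, -⟩
  exacts [⟨m, m1, hm⟩, ⟨0, hG.ok.pos, mem_Fm.2 ⟨v, v0, v1, e⟩⟩]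

/-- at an exposed site at most five points of `U0` are near. -/
theorem U0_card (hG : Geom ex ey p R P U D j A) {k : ℕ} {z : Tor 3 L} (hz : z ∉ U 1)
    (h : Exp R A k z) : (U0 ex ey p R P D j (tm T k) c ∩ bl z A).card ≤ 5 := by
  classical
  refine le_trans (card_le_card fun y hy => ?_) h
  obtain ⟨y1, y2⟩ := mem_inter.1 hy
  have := hG.hA.2
  have := mem_bl.1 y2
  exact mem_filter.2 ⟨y2, c, (mem_U0.1 y1).resolve_left (not_not.2 (hG.leaf z hz y (by omega)))⟩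

end VV

/-- near a clean point the high levels are not seen in small balls. -/
theorem far (hP : P.Ok L) {x z : Tor 3 L} {m1 d : ℕ} (hcl : Clean P U x m1 d) (hz : tdist x z ≤ d)
    (r : ℕ) {m : ℕ} (h1 : m1 ≤ m) (h2 : m < P.mt) : P.η m ≤ r ∨ ∀ y ∈ Fm P U m, y ∉ bl z r :=
  (le_or_gt _ _).imp_right fun h3 y hy hy' => by
    obtain ⟨v, hv, -, e⟩ := mem_Fm.1 hy
    have := hcl m h1 h2 v hv
    have := mem_bl.1 hy'
    have := hP.ρη m h2
    have := tdist_triangle x z y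
    have := tdist_triangle x y v
    rw [tdist_comm] at e
    omega

open Classical in
/-- the static bound for one layer and one time. -/
theorem stat {D : ℕ} (hG : Geom ex ey p R P U D j A) {x : Tor 3 L} {d nmax vol : ℕ} {C : ℝ}
    (hcap : CapH P U x d A nmax vol C) {lam : ℝ} (hl : 0 < lam) {k : ℕ} {c : Fin n}
    {h : Tor 3 L → ℝ} (hR : ∀ y, (tm T k, (y, c)) ∈ R → h y = 0)
    (top : 4 * (univ.filter fun y => lam < h y).card ≤ vol)
    {S : Finset (Tor 3 L)} (hS : ∀ y ∈ S, 2 * lam ≤ h y ∧ tdist x y ≤ d ∧ Exp R A k y ∧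
      Near P U y 1 A)
    (hsep : ∀ z ∈ S, ∀ z' ∈ S, z ≠ z' →
      tdist x z + 2 * A < tdist x z' ∨ tdist x z' + 2 * A < tdist x z) (hn : S.card ≤ nmax) :
    lam ^ 2 * S.card ≤ C * En (Jn L) (U0 ex ey p R P D j (tm T k) c) 1 fun y => tr lam (h y) := by
  refine hcap _ S _ lam (VV_cov (s := tm T k) (c := c) hG hG.ok.pos) (fun z hz => ?_) hsep hn
    (fun y => ⟨tr_nonneg hl.le _, tr_le _ _⟩) (fun z hz => tr_of_ge (hS z hz).1)
    (le_trans (Nat.mul_le_mul_left _ (card_le_card fun y hy => ?_)) top)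
  · obtain ⟨h1, h2, h3, h4⟩ := hS z hz
    have h5 := h4 z (by simp [tdist_self])
    have h6 : z ∉ U 1 := not_mem_U' h5.1 hG.ok.pos h5.2
    refine ⟨h2, fun e => ?_, U0_card hG h6 h3, h4⟩
    have := hR z ((mem_U0.1 e).resolve_left (not_not.2 (hG.leaf z h6 z (by simp [tdist_self]))))
    linarith
  · exact mem_filter.2 ⟨mem_univ _, not_le.1 fun e => (mem_filter.1 hy).2 (tr_of_le hl.le e)⟩

variable (ex ey p R E Bd P) in
/-- good sweeps (no source). -/
def Gd0 (D j i : ℕ) : Prop := i ∉ Bd ∧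
  ∀ a < E, ∀ x, Leaf ex ey p R D (P.a 0) j (4 * P.η 0) x → ∀ y, tdist x y.1 ≤ 4 * P.η 0 →
    ¬Ch ex ey p R (tm T (i * E + a)) y

variable (ex ey p R E Bd P) in
/-- good sweeps that do not reach the time `s0`. -/
def Gd (s0 : Fin T) (D j i : ℕ) : Prop :=
  Gd0 ex ey p R E Bd P D j i ∧ ∀ a < E, tm T (i * E + a) + 1 ≠ s0

section sweep
variable {D i : ℕ} {z : Tor 3 L × Fin n}

/-- a slot off `U0` stays green during a good sweep. -/
theorem green (hg : Gd0 ex ey p R E Bd P D j i)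
    (hz : z.1 ∉ U0 ex ey p R P D j (tm T (i * E)) z.2) {a : ℕ} (ha : a < E) :
    (tm T (i * E + a), z) ∉ R := by
  obtain ⟨hL, h0⟩ := not_or.1 (mt mem_U0.2 hz)
  induction a with
  | zero => exact h0
  | succ a ih =>
    intro h
    refine hg.2 a (by omega) z.1 (not_not.1 hL) z (by simp [tdist_self])
      (Or.inl fun e => ih (by omega) (e.2 ?_))
    rwa [← tm_succ]

/-- and sees at most the free rates. -/
theorem rate_le (hE : Env ex ey p p0 b b0 R Z) (hp0 : ∀ s, 0 ≤ p0 s) (hη : 1 ≤ P.η 0)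
    (hg : Gd0 ex ey p R E Bd P D j i) (hz : z.1 ∉ U0 ex ey p R P D j (tm T (i * E)) z.2)
    (hZ : z.1 ∉ Z) {a : ℕ} (ha : a < E) :
    (if z = ex (tm T (i * E + a)) ∨ z = ey (tm T (i * E + a)) then p (tm T (i * E + a)) else 0) ≤
      tch ex ey p0 z (i * E + a) := by
  unfold tch
  have g1 := green hg hz ha
  have g2 := hg.2 a ha z.1 (not_not.1 (not_or.1 (mt mem_U0.2 hz)).1)
  generalize tm T (i * E + a) = s at g1 g2
  split_ifs with e
  swap; · exact le_rfl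
  by_cases e0 : p s = 0
  · rw [e0]; exact hp0 s
  have n1 := hE.nn s e0
  have k1 : (s, ex s) ∉ R := fun h => by
    rcases e with rfl | rfl
    · exact g1 h
    · exact g2 (ex s) (by rw [tdist_comm]; omega)
        (Or.inr ⟨Or.inl rfl, h, e0, by rwa [Equiv.swap_apply_left]⟩)
  have k2 : (s, ey s) ∉ R := fun h => by
    rcases e with rfl | rfl
    · exact g2 (ey s) (by omega) (Or.inr ⟨Or.inr rfl, h, e0, by rwa [Equiv.swap_apply_right]⟩)
    · exact g1 h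
  rcases hE.free s k1 k2 with h | h
  · exact h.le
  · rcases e with rfl | rfl
    exacts [absurd h.1 hZ, absurd h.2 hZ]

/-- freezing of a slot during a good sweep, for any `g` with the step bound. -/
theorem frz (hE : Env ex ey p p0 b b0 R Z) (hC : Clock ex ey p0 b0 E w B q κ Bd) (hη : 1 ≤ P.η 0)
    (hi : i < B * w) (hg : Gd0 ex ey p R E Bd P D j i)
    (hz : z.1 ∉ U0 ex ey p R P D j (tm T (i * E)) z.2) {θ : ℝ} (hθ : 0 ≤ θ)
    (hs : ∀ a < E, |g (tm T (i * E + a) + 1, z) - b (tm T (i * E + a), z) * g (tm T (i * E + a), z)| ≤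
      (if z = ex (tm T (i * E + a)) ∨ z = ey (tm T (i * E + a)) then p (tm T (i * E + a)) else 0) * θ)
    {a : ℕ} (ha : a < E) : |b (tm T (i * E + a), z) * g (tm T (i * E + a), z) -
      b (tm T (i * E), z) * g (tm T (i * E), z)| ≤ κ * q * θ := by
  have t0 : ∀ k, 0 ≤ tch ex ey p0 z k := fun k => by
    unfold tch; split_ifs; exacts [(hC.hp0 _).1, le_rfl]
  refine le_trans ?_ (mul_le_mul_of_nonneg_right ((sum_le_sum_of_subset_of_nonneg
    (range_mono ha.le) fun _ _ _ => t0 _).trans (hC.rate i hi hg.1 z)) hθ)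
  by_cases hZ : z.1 ∈ Z
  · simp only [hE.bZ (_, z) hZ, zero_mul, sub_self, abs_zero]
    exact mul_nonneg (sum_nonneg fun _ _ => t0 _) hθ
  induction a with
  | zero => simp
  | succ a ih =>
    have h2 : b (tm T (i * E + (a + 1)), z) = 1 := by
      rw [hE.bf _ (green hg hz ha) hZ]; exact hC.one i hi hg.1 _ ha
    rw [h2, one_mul, ← add_assoc, tm_succ, sum_range_succ, add_mul]
    exact (abs_sub_le _ _ _).trans ((add_comm _ _).trans_le (add_le_add (ih (by omega))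
      ((hs a (by omega)).trans (mul_le_mul_of_nonneg_right
        (rate_le hE (fun s => (hC.hp0 s).1) hη hg hz hZ (by omega)) hθ))))

/-- energy of the slice at the start of a good sweep, for any function `φ` that is constant on `Z`
and moves by at most `δ z` at the slots off `U0`. -/
theorem sweep (hE : Env ex ey p p0 b b0 R Z) (hC : Clock ex ey p0 b0 E w B q κ Bd)
    (hp : ∀ s, 0 ≤ p s ∧ p s ≤ 1) (hi : i < B * w) (hg : Gd0 ex ey p R E Bd P D j i)
    (φ : Fin T × (Tor 3 L × Fin n) → ℝ) (δ : Tor 3 L × Fin n → ℝ)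
    (hZ : ∀ x ∈ Z, ∀ y ∈ Z, ∀ c, φ (tm T (i * E), (x, c)) = φ (tm T (i * E), (y, c)))
    (fz : ∀ z : Tor 3 L × Fin n, z.1 ∉ U0 ex ey p R P D j (tm T (i * E)) z.2 → ∀ a < E,
      |φ (tm T (i * E + a), z) - φ (tm T (i * E), z)| ≤ δ z)
    (F : Fin T → ℝ) (hF : ∀ s, F s = p s * (1 - p s) * (φ (s, ex s) - φ (s, ey s)) ^ 2) :
    q * ∑ c, En (Jn L) (U0 ex ey p R P D j (tm T (i * E)) c) 1 (fun y => φ (tm T (i * E), (y, c))) ≤
      8 * ∑ a ∈ range E, F (tm T (i * E + a)) + 48 * q * ∑ z, δ z ^ 2 := by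
  classical
  obtain ⟨a, inj, ha⟩ := hC.edge i hi hg.1
  have F0 : ∀ s, 0 ≤ F s := fun s => by
    rw [hF]; exact mul_nonneg (mul_nonneg (hp s).1 (sub_nonneg.2 (hp s).2)) (sq_nonneg _)
  have J0 : ∀ x y, 0 ≤ Jn L x y := torJ_nonneg (Asy.coup_nn 3)
  have hq := hC.hq
  have h1 : ∑ c, ∑ x, ∑ y, (if Jn L x y ≠ 0 then F (tm T (i * E + a (x, y, c))) else 0) ≤
      2 * ∑ a ∈ range E, F (tm T (i * E + a)) := by
    rw [sum_comm, sum_congr rfl fun _ _ => sum_comm, mul_sum]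
    refine le_trans (le_of_eq ?_) ((sum_fiberwise_of_maps_to (s := univ.filter
      fun e : Tor 3 L × Tor 3 L × Fin n => Jn L e.1 e.2.1 ≠ 0) (t := range E) (g := a)
      (fun e he => mem_range.2 (ha _ _ _ (mem_filter.1 he).2).1)
      fun e => F (tm T (i * E + a e))).ge.trans (sum_le_sum fun k _ => ?_))
    · simp only [sum_filter, Fintype.sum_prod_type]
    · rw [sum_congr rfl fun e he => by rw [(mem_filter.1 he).2], sum_const, filter_filter, nsmul_eq_mul]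
      exact mul_le_mul_of_nonneg_right (by exact_mod_cast inj k) (F0 _)
  have h2 : ∑ c : Fin n, ∑ x, ∑ y, Jn L x y * δ (x, c) ^ 2 ≤ 6 * ∑ z, δ z ^ 2 := by
    rw [Fintype.sum_prod_type_right, mul_sum]
    refine sum_le_sum fun c _ => ?_
    rw [mul_sum]
    exact sum_le_sum fun x _ => by
      rw [← sum_mul]; exact mul_le_mul_of_nonneg_right (sum_Jn x) (sq_nonneg _)
  have h3 : ∑ c : Fin n, ∑ x, ∑ y, Jn L x y * δ (y, c) ^ 2 ≤ 6 * ∑ z, δ z ^ 2 :=
    le_trans (le_of_eq (sum_congr rfl fun c _ => sum_comm.trans (sum_congr rfl fun x _ =>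
      sum_congr rfl fun y _ => by rw [Jn, torJ_symm (Asy.coup_nn 3)]))) h2
  have h4 : 0 ≤ 4 * q := by positivity
  refine le_trans ?_ ((add_le_add (mul_le_mul_of_nonneg_left h1 (show (0 : ℝ) ≤ 4 by norm_num))
    (add_le_add (mul_le_mul_of_nonneg_left h2 h4) (mul_le_mul_of_nonneg_left h3 h4))).trans_eq (by ring))
  simp only [En, mul_sum, ← sum_add_distrib]
  refine sum_le_sum fun c _ => sum_le_sum fun x _ => sum_le_sum fun y _ => ?_
  have j0 := J0 x y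
  by_cases hJ : Jn L x y = 0
  · simp [hJ]
  rw [if_pos hJ]
  have f0 := F0 (tm T (i * E + a (x, y, c)))
  split_ifs with hxy
  swap; · rw [mul_zero]; positivity
  obtain ⟨a1, a2, a4⟩ := ha x y c hJ
  have x1 := green (z := (x, c)) hg hxy.1 a1
  have y1 := green (z := (y, c)) hg hxy.2 a1
  have x3 := abs_le.1 (fz (x, c) hxy.1 _ a1)
  have y3 := abs_le.1 (fz (y, c) hxy.2 _ a1)
  simp only [Pi.one_apply, max_self, div_one]
  generalize tm T (i * E + a (x, y, c)) = s at *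
  have a3 : (p s = p0 s ∨ (x ∈ Z ∧ y ∈ Z)) ∧
      (φ (s, ex s) - φ (s, ey s)) ^ 2 = (φ (s, x, c) - φ (s, y, c)) ^ 2 := by
    have := hE.free s
    rcases a2 with ⟨a2, a3⟩ | ⟨a2, a3⟩ <;> rw [a2, a3] at this ⊢
    exacts [⟨this x1 y1, rfl⟩, ⟨(this y1 x1).imp_right And.symm, by ring⟩]
  rcases a3.1 with h | h
  · have p1 := (hC.hp0 s).2
    rw [hF, a3.2, h, a4, ← mul_assoc q]
    rw [a4] at p1
    generalize φ (s, x, c) = s1, φ (s, y, c) = s2, φ (tm T (i * E), x, c) = t1,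
      φ (tm T (i * E), y, c) = t2, δ (x, c) = d1, δ (y, c) = d2 at x3 y3 ⊢
    have e1 : (t1 - t2 - (s1 - s2)) ^ 2 ≤ (d1 + d2) ^ 2 := sq_le_sq' (by linarith) (by linarith)
    have e2 : (t1 - t2) ^ 2 ≤ 2 * (s1 - s2) ^ 2 + 4 * d1 ^ 2 + 4 * d2 ^ 2 := by
      nlinarith [sq_nonneg (t1 - t2 - 2 * (s1 - s2)), sq_nonneg (d1 - d2)]
    have e3 := mul_le_mul_of_nonneg_left e2 (mul_nonneg hq.le j0)
    have e4 := mul_nonneg (mul_nonneg (mul_nonneg hq.le j0) (sq_nonneg (s1 - s2))) (sub_nonneg.2 p1)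
    nlinarith
  · rw [hZ x h.1 y h.2, sub_self, zero_pow two_ne_zero, mul_zero, mul_zero]
    positivity

end sweep

open Classical in
/-- half of the sweeps of a window are good. -/
theorem good (s0 : Fin T) (hT : T = B * w * E) (hw : 2 * (Bd.card + L ^ 3 * j + 1) ≤ w) {i0 : ℕ}
    (hi : i0 < B) : w ≤ 2 * (((range (B * w)).filter (Gd ex ey p R E Bd P s0 (w * E) j)).filter
      fun i => i0 = i / w).card := by
  have hE : 0 < E := Nat.pos_of_ne_zero fun e => NeZero.ne T (by simp [hT, e])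
  have h1 := card_biUnion_le_card_mul
    (univ.filter fun x => Leaf ex ey p R (w * E) (P.a 0) j (4 * P.η 0) x) _ j
    fun x hx => (card_image_le (f := (· / E))).trans ((mem_filter.1 hx).2.chg i0)
  have h2 := (card_filter_le univ fun x => Leaf ex ey p R (w * E) (P.a 0) j (4 * P.η 0) x).trans_eq
    card_Tor
  have h3 := (card_le_card (s := Ico (i0 * w) ((i0 + 1) * w)) ?_).trans ((card_union_le _ _).trans
    (add_le_add ((card_union_le _ _).trans (add_le_add (card_union_le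
      (((range (B * w)).filter (Gd ex ey p R E Bd P s0 (w * E) j)).filter fun i => i0 = i / w) Bd)
        (card_singleton ((s0 - 1).val / E)).le)) (h1.trans (Nat.mul_le_mul_right _ h2))))
  · rw [Nat.card_Ico, add_mul, one_mul, Nat.add_sub_cancel_left] at h3
    omega
  intro i hi'
  obtain ⟨i1, i2⟩ := mem_Ico.1 hi'
  have i3 : i < B * w := i2.trans_le (Nat.mul_le_mul_right _ hi)
  have i4 : ∀ a < E, i * E + a < (i + 1) * E ∧ (i * E + a) / E = i := fun a ha =>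
    ⟨by rw [add_mul]; omega, by rw [mul_comm, Nat.mul_add_div hE, Nat.div_eq_of_lt ha, add_zero]⟩
  by_contra hn
  simp only [mem_union, not_or, mem_filter, mem_range, mem_singleton, mem_biUnion, mem_univ, true_and,
    mem_image, mem_Ico] at hn
  obtain ⟨⟨⟨n1, n2⟩, n3⟩, n4⟩ := hn
  refine n1 ⟨⟨i3, ⟨n2, fun a ha x hx y hy hc => n4 ⟨x, hx, i * E + a,
    ⟨⟨?_, ?_⟩, y, hy, hc⟩, (i4 a ha).2⟩⟩, fun a ha e => n3 ?_⟩, (Nat.div_eq_of_lt_le i1 i2).symm⟩
  · rw [← mul_assoc]; exact (Nat.mul_le_mul_right _ i1).trans (Nat.le_add_right _ _)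
  · rw [← mul_assoc]; exact (i4 a ha).1.trans_le (Nat.mul_le_mul_right _ i2)
  · rw [← e, add_sub_cancel_right, tm_val_of_lt, (i4 a ha).2]
    exact (i4 a ha).1.trans_le (hT ▸ Nat.mul_le_mul_right _ i3)

open Classical in
/-- the same without source. -/
theorem good0 (hT : T = B * w * E) (hw : 2 * (Bd.card + L ^ 3 * j + 1) ≤ w) {i0 : ℕ}
    (hi : i0 < B) : w ≤ 2 * (((range (B * w)).filter (Gd0 ex ey p R E Bd P (w * E) j)).filter
      fun i => i0 = i / w).card :=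
  (good 0 hT hw hi).trans (Nat.mul_le_mul_left _ (card_le_card (filter_subset_filter _
    (monotone_filter_right _ fun _ _ h => h.1))))

end Ex
open Ex

open Classical in
theorem expo (G : Grn ex ey p b u Y g) (hE : Env ex ey p p0 b b0 R Z)
    (hC : Clock ex ey p0 b0 E w B q κ Bd) (hG : Geom ex ey p R P U (w * E) j A)
    (hw : 2 * (Bd.card + L ^ 3 * j + 1) ≤ w) {x : Tor 3 L} {d nmax vol N : ℕ} {M : ℝ}
    (M0 : 0 ≤ M) (hcap : CapH P U x d A nmax vol M) {μ lam : ℝ} (hμ : 0 ≤ μ)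
    (top : ∀ lam, μ < lam → ∀ s (c : Fin n), 4 * (univ.filter fun y =>
      lam < b (s, (y, c)) * g (s, (y, c))).card ≤ vol)
    (W : ℕ → ℕ) (z : ℕ → ℕ → Tor 3 L × Fin n) (hN : 1 ≤ N)
    (hz : ∀ ι < N, ∀ s ∈ Ico (W ι * w) ((W ι + 1) * w),
      2 * lam ≤ b (tm T (s * E), z ι s) * g (tm T (s * E), z ι s) ∧ tdist x (z ι s).1 ≤ d ∧
      Exp R A (s * E) (z ι s).1 ∧ Near P U (z ι s).1 1 A)
    (hsep : ∀ ι < N, ∀ ι' < N, ι ≠ ι' → W ι % B = W ι' % B →
      ∀ s ∈ Ico (W ι * w) ((W ι + 1) * w), ∀ s' ∈ Ico (W ι' * w) ((W ι' + 1) * w),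
        tdist x (z ι s).1 + 2 * A < tdist x (z ι' s').1 ∨
          tdist x (z ι' s').1 + 2 * A < tdist x (z ι s).1)
    (hn : ∀ i, ((range N).filter fun ι => W ι % B = i).card ≤ nmax) :
    lam ≤ μ + 16 * κ * M / N + 6 * κ ^ 3 * (q ^ 2 * (1 / (1 - Y)) ^ 2 * L ^ 3 * n * B) := by
  have hκ := hC.hκ
  have hq := hC.hq
  have hN' : (0 : ℝ) < N := by exact_mod_cast hN
  generalize he : q ^ 2 * (1 / (1 - Y)) ^ 2 * L ^ 3 * n * B = e
  have e0 : 0 ≤ e := by rw [← he]; positivity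
  rcases le_or_gt lam μ with hl | hl
  · rw [add_assoc]; exact hl.trans (le_add_of_nonneg_right (by positivity))
  have l0 := hμ.trans_lt hl
  have hT := hC.hT
  have hB : 0 < B := Nat.pos_of_ne_zero fun e => NeZero.ne T (by simp [hT, e])
  have w0 : 0 < w := by omega
  have hη : 1 ≤ P.η 0 := by have := tS_le hG.ok; have := one_le_tS; omega
  obtain ⟨F, hF⟩ : ∃ F : Fin T → ℝ, ∀ s, F s = p s * (1 - p s) *
    (tr lam (b (s, ex s) * g (s, ex s)) - tr lam (b (s, ey s) * g (s, ey s))) ^ 2 := ⟨_, fun _ => rfl⟩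
  have key : ∀ i ∈ (range (B * w)).filter (Gd ex ey p R E Bd P u.1 (w * E) j),
      q * lam ^ 2 * ((range N).filter fun ι => W ι % B = i / w).card ≤ M *
        (8 * ∑ a ∈ range E, F (tm T (i * E + a)) +
          48 * q * ∑ _z : Tor 3 L × Fin n, (κ * q * (1 / (1 - Y))) ^ 2) := fun i hi => by
    obtain ⟨i1, i2⟩ := mem_filter.1 hi
    refine le_trans ?_ (mul_le_mul_of_nonneg_left (sweep hE hC G.hp (mem_range.1 i1) i2.1
      (fun v => tr lam (b v * g v)) _ (fun x hx y hy c => by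
        simp only [hE.bZ (_, x, c) hx, hE.bZ (_, y, c) hy, zero_mul])
      (fun z hz a ha => (tr_lip _ _ _).trans (frz hE hC hη (mem_range.1 i1) i2.1 hz
        (one_div_nonneg.2 (sub_nonneg.2 G.hY.2.le))
        (fun a ha => G.step_abs _ z fun e => i2.2 a ha (congrArg Prod.fst e)) ha)) F hF) M0)
    have mem : ∀ ι, W ι * w + i % w ∈ Ico (W ι * w) ((W ι + 1) * w) := fun ι =>
      mem_Ico.2 ⟨Nat.le_add_right _ _, by rw [add_mul, one_mul]; have := Nat.mod_lt i w0; omega⟩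
    have tme : ∀ ι, W ι % B = i / w → tm T ((W ι * w + i % w) * E) = tm T (i * E) := fun ι h => by
      have : (W ι * w + i % w) * E = i * E + T * (W ι / B) := by
        conv_lhs => rw [← Nat.mod_add_div (W ι) B, h]
        conv_rhs => rw [← Nat.div_add_mod i w, hT]
        ring
      exact Fin.ext (by rw [tm_val, tm_val, this, Nat.add_mul_mod_self_left])
    have sep := fun ι (h : ι ∈ (range N).filter fun ι => W ι % B = i / w) ι'
      (h' : ι' ∈ (range N).filter fun ι => W ι % B = i / w) ne => hsep ι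
        (mem_range.1 (mem_filter.1 h).1) ι' (mem_range.1 (mem_filter.1 h').1) ne
        ((mem_filter.1 h).2.trans (mem_filter.1 h').2.symm) _ (mem ι) _ (mem ι')
    have inj : ∀ ι ∈ (range N).filter fun ι => W ι % B = i / w,
        ∀ ι' ∈ (range N).filter fun ι => W ι % B = i / w,
          tdist x (z ι (W ι * w + i % w)).1 = tdist x (z ι' (W ι' * w + i % w)).1 → ι = ι' :=
      fun ι h ι' h' e => by_contra fun ne => by have := sep ι h ι' h' ne; omega
    rw [card_eq_sum_card_fiberwise (f := fun ι => (z ι (W ι * w + i % w)).2) (t := univ) (by simp),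
      mul_left_comm M, mul_assoc, Nat.cast_sum, mul_sum _ _ (lam ^ 2), mul_sum _ _ M]
    refine mul_le_mul_of_nonneg_left (sum_le_sum fun c _ => ?_) hq.le
    rw [← card_image_of_injOn (f := fun ι => (z ι (W ι * w + i % w)).1) fun ι h ι' h' e =>
      inj ι (mem_filter.1 h).1 ι' (mem_filter.1 h').1 (congrArg _ e)]
    refine stat hG hcap l0 (fun y hy => by rw [hE.bR _ hy, zero_mul]) (top lam hl _ c)
      (fun y hy => ?_) (fun y hy y' hy' e => ?_)
      (card_image_le.trans ((card_filter_le _ _).trans (hn _)))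
    · obtain ⟨ι, h, rfl⟩ := mem_image.1 hy
      obtain ⟨h0, rfl⟩ := mem_filter.1 h
      have := hz ι (mem_range.1 (mem_filter.1 h0).1) _ (mem ι)
      unfold Exp at this ⊢
      rwa [tme ι (mem_filter.1 h0).2] at this
    · obtain ⟨ι, h, rfl⟩ := mem_image.1 hy
      obtain ⟨ι', h', rfl⟩ := mem_image.1 hy'
      exact sep ι (mem_filter.1 h).1 ι' (mem_filter.1 h').1 fun e' => e (by rw [e'])
  have h1 : N * w ≤ 2 * ∑ i ∈ (range (B * w)).filter (Gd ex ey p R E Bd P u.1 (w * E) j),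
      ((range N).filter fun ι => W ι % B = i / w).card := by
    simp only [card_filter]
    rw [sum_comm, mul_sum]
    simp only [← card_filter]
    simpa using card_nsmul_le_sum (range N) _ w fun ι _ => good u.1 hT hw (Nat.mod_lt (W ι) hB)
  have h2 : ∑ i ∈ range (B * w), ∑ a ∈ range E, F (tm T (i * E + a)) ≤ lam := by
    rw [← sum_range_mul fun k => F (tm T k), ← hT, ← sum_tm, funext hF]
    exact G.energy l0.le
  have h3 := (sum_le_sum key).trans (sum_le_sum_of_subset_of_nonneg (filter_subset _ _)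
    fun i _ _ => mul_nonneg M0 (add_nonneg (mul_nonneg (by norm_num) (sum_nonneg fun _ _ => by
      rw [hF]; exact mul_nonneg (mul_nonneg (G.hp _).1 (sub_nonneg.2 (G.hp _).2)) (sq_nonneg _)))
      (by positivity)))
  rw [← mul_sum, ← mul_sum, sum_add_distrib, ← mul_sum, sum_const, card_range, ← Nat.cast_sum,
    nsmul_eq_mul] at h3
  have h4 : q * lam ^ 2 * (N * w) ≤ 2 * (M * (8 * lam + 48 * (w * q) * κ ^ 2 * e)) := by
    have h1 := (Nat.cast_le (α := ℝ)).2 h1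
    rw [Nat.cast_mul, Nat.cast_mul, Nat.cast_ofNat] at h1
    refine (mul_le_mul_of_nonneg_left h1 (by positivity)).trans ?_
    rw [mul_left_comm]
    refine mul_le_mul_of_nonneg_left (h3.trans (mul_le_mul_of_nonneg_left
      (add_le_add (by linarith) (le_of_eq ?_)) M0)) zero_le_two
    rw [← he, sum_const, card_univ, Fintype.card_prod, card_Tor, Fintype.card_fin, nsmul_eq_mul]
    push_cast; ring
  obtain ⟨w1, w2⟩ := hC.wq
  have h5 : lam ^ 2 ≤ 16 * κ * M / N * (lam + 6 * κ ^ 3 * e) := by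
    rw [div_mul_eq_mul_div, le_div_iff₀ hN']
    calc _ ≤ κ * (w * q) * (lam ^ 2 * N) := le_mul_of_one_le_left (by positivity) w1
      _ = κ * (q * lam ^ 2 * (N * w)) := by ring
      _ ≤ κ * (2 * (M * (8 * lam + 48 * κ * κ ^ 2 * e))) :=
        mul_le_mul_of_nonneg_left (h4.trans (by gcongr)) (by positivity)
      _ = _ := by ring
  have h7 : 0 ≤ κ ^ 3 * e := by positivity
  have h8 : 0 ≤ 16 * κ * M / N := by positivity
  generalize 16 * κ * M / N = a at h5 h8 ⊢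
  have : lam ≤ a + 6 * κ ^ 3 * e := le_of_not_gt fun h => by nlinarith
  linarith

end Crest.Agent.N337.G1
end

-- ▼ part N337/G1/Cap

/-!
# Row 337, G1 (helper9): the static capacity bound `CapH` from a clean ball or from a tube
-/

set_option autoImplicit false

namespace Crest.Agent.N337.G1

open Finset Crest.MathPhysics.SpinModel Geo Free

variable {L : ℕ} [NeZero L] {P : Scales} {U : ℕ → Finset (Tor 3 L)} {x : Tor 3 L}
  {d nmax vol : ℕ} {C : ℝ}

open Classical in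
/-- the capacity bound after the filling. -/
def Cap0 (P : Scales) (U : ℕ → Finset (Tor 3 L)) (x : Tor 3 L) (d nmax vol : ℕ) (C : ℝ) : Prop :=
  ∀ (V : ℕ → Finset (Tor 3 L)) (Good S : Finset (Tor 3 L)) (w φ ψ : Tor 3 L → ℝ) (lam : ℝ),
    (∀ m, 1 ≤ m → Fm P V m = Fm P U m) → (∀ m < P.mt, CovIn P V m) →
    (∀ y ∉ Good, ∃ m < P.mt, y ∈ Fm P V m) → (∀ y, 1 ≤ w y) →
    (∀ y ∉ U P.mt, w y = 1 ∨ ∃ m < P.mt, y ∈ Fm P V m ∧ w y ≤ P.K m) →
    0 ≤ lam → (∀ y, φ y ≤ lam) → (∀ y ∈ Good, φ y ≤ ψ y) → (∀ z ∈ S, φ z = lam ∧ tdist x z ≤ d) →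
    (∀ z ∈ S, ∀ z' ∈ S, tdist x z = tdist x z' → z = z') → S.card ≤ nmax →
    4 * (univ.filter fun y => ψ y ≠ 0).card ≤ vol → lam ^ 2 * S.card ≤ C * En (Jn L) ∅ w φ

theorem capH_of (hP : P.Ok L) (hc : ∀ m, 1 ≤ m → m < P.mt → CovIn P U m) {Ar : ℕ}
    (hA : 11 * P.ρ 0 + 6 ≤ Ar ∧ Ar ≤ P.η 0) (C0 : 0 ≤ C) (h : Cap0 P U x (d + Ar) nmax vol C) :
    CapH P U x d Ar nmax vol (16 * Ar + 2 * C) := by
  classical
  intro U0 A ψ lam hc0 hz hsep hn h0 h1 hv
  obtain ⟨V, V0, V1, hc0⟩ : ∃ V : ℕ → Finset (Tor 3 L), V 0 = U0 ∧ (∀ m, 1 ≤ m → V m = U m) ∧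
      CovIn P V 0 := ⟨_, Function.update_self _ _ _,
    fun m hm => Function.update_of_ne (by omega) _ _, hc0⟩
  have F1 : ∀ m, 1 ≤ m → Fm P V m = Fm P U m := fun m hm => by
    ext y; rw [mem_Fm, mem_Fm, V1 m hm, V1 _ (by omega)]
  have hc' : ∀ m < P.mt, CovIn P V m := fun m hm => by
    rcases m.eq_zero_or_pos with rfl | m0
    · exact hc0
    · have := hc m m0 hm
      unfold CovIn at this ⊢
      rwa [V1 m m0, V1 _ (by omega)]
  obtain ⟨Vr, Good, w, hV, hSt, hG, hw⟩ := fill' hP hc'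
  rw [V0] at hSt hG
  rw [V1 _ hP.pos] at hV
  have hL := hP.ηL 0 hP.pos
  choose! e t ht e0 eU eJ eρ using fun z (h : z ∈ A) =>
    ray (ρ := P.ρ 0) (hz z h).2.1 (hz z h).2.2.1 hA.1 (by omega)
  have rad : ∀ z ∈ A, ∀ i ≤ Ar, tdist x (e z i) ≤ tdist x z + Ar ∧
      tdist x z ≤ tdist x (e z i) + Ar := fun z h i hi => by
    have := (eU z h i hi).2
    have := tdist_triangle x z (e z i)
    have := tdist_triangle x (e z i) z
    rw [tdist_comm (e z i)] at this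
    omega
  have inj : ∀ z ∈ A, ∀ z' ∈ A, ∀ i ≤ Ar, ∀ i' ≤ Ar, tdist x (e z i) = tdist x (e z' i') → z = z' :=
    fun z h z' h' i hi i' hi' k => by_contra fun ne => by
      have := hsep z h z' h' ne
      have := rad z h i hi
      have := rad z' h' i' hi'
      omega
  have gd : ∀ z ∈ A, e z (t z) ∈ Good := fun z h => by_contra fun k => by
    rcases hG _ k with ⟨m, m0, m1, hm⟩ | ⟨v, v0, -, k, -⟩
    · exact ((hz z h).2.2.2 _ ((eU z h _ (ht z h)).2.trans_le (ht z h))).2 m m0 m1 (F1 m m0 ▸ hm)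
    · exact (eρ z h v v0).not_ge k
  have hl : 0 ≤ lam := (h0 0).1.trans (h0 0).2
  have E0 := En_nonneg U0 (w := 1) (fun _ => le_rfl) ψ
  have a1 := (card_nsmul_le_sum (A.filter fun z => ψ (e z (t z)) < 3 / 4 * lam) _ ((lam / 4) ^ 2)
    fun z h => by
      obtain ⟨h, k⟩ := mem_filter.1 h
      rw [e0 z h, h1 z h]
      exact pow_le_pow_left₀ (by positivity) (by linarith) 2).trans (rays (U0 := U0) ψ e t
    (fun z h => ht z (mem_filter.1 h).1) (fun z h i hi => (eU z (mem_filter.1 h).1 i hi).1)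
    (fun z h => eJ z (mem_filter.1 h).1) fun z h z' h' i hi i' hi' k => by
      obtain rfl := inj z (mem_filter.1 h).1 z' (mem_filter.1 h').1 i hi i' hi' (congrArg _ k)
      exact ⟨rfl, by rw [← (eU z (mem_filter.1 h).1 i hi).2, k, (eU z (mem_filter.1 h).1 i' hi').2]⟩)
  obtain ⟨φ0, -, p1, p2, -⟩ := hSt.2 (fun y => min (ψ y) (3 / 4 * lam))
    fun y => le_min (h0 y).1 (by positivity)
  have p3 := ((En_min Vr hSt.1 φ0 (3 / 4 * lam)).trans p2).trans (En_min U0 (w := 1) (fun _ => le_rfl) ψ _)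
  have a3 := card_filter_add_card_filter_not (s := A) fun z => ψ (e z (t z)) < 3 / 4 * lam
  refine le_of_forall_pos_le_add fun ε hε => ?_
  obtain ⟨w', w1, w2, w3⟩ := wall Vr hSt.1 (fun y => min (φ0 y) (3 / 4 * lam))
    (show 0 < ε / (2 * C + 1) by positivity)
  have a2 := h V Good ((A.filter fun z => ¬ψ (e z (t z)) < 3 / 4 * lam).image fun z => e z (t z)) w'
    (fun y => min (φ0 y) (3 / 4 * lam)) ψ (3 / 4 * lam) F1 hc' (fun y hy => ?_) w1
    (fun y hy => by rw [w2 y fun k => hy (hV k)]; exact hw y) (by positivity)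
    (fun y => min_le_right _ _) (fun y hy => (min_le_left _ _).trans ((p1 y hy).trans_le
      (min_le_left _ _))) (fun y hy => ?_) (fun y hy y' hy' k => ?_)
    (card_image_le.trans ((card_filter_le _ _).trans hn)) hv
  · rw [card_image_of_injOn fun z h z' h' k => inj z (mem_filter.1 h).1 z' (mem_filter.1 h').1 _
      (ht z (mem_filter.1 h).1) _ (ht z' (mem_filter.1 h').1) (congrArg _ k)] at a2
    have a4 := a2.trans (mul_le_mul_of_nonneg_left (w3.trans (add_le_add_left p3 _)) C0)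
    have a5 : 2 * C * (ε / (2 * C + 1)) ≤ ε := by
      rw [← mul_div_assoc, div_le_iff₀ (by positivity)]; nlinarith
    rw [← a3, Nat.cast_add]
    rw [nsmul_eq_mul] at a1
    have := Nat.cast_nonneg (α := ℝ) (A.filter fun z => ¬ψ (e z (t z)) < 3 / 4 * lam).card
    nlinarith [mul_nonneg (sq_nonneg lam) this]
  · rcases hG y hy with ⟨m, -, m1, hm⟩ | ⟨v, v0, v1, k, -⟩
    exacts [⟨m, m1, hm⟩, ⟨0, hP.pos, mem_Fm.2 ⟨v, V0 ▸ v0, v1, k⟩⟩]
  · obtain ⟨z, h, rfl⟩ := mem_image.1 hy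
    obtain ⟨h, k⟩ := mem_filter.1 h
    refine ⟨by rw [p1 _ (gd z h), min_eq_right (not_lt.1 k), min_self], ?_⟩
    have := (rad z h _ (ht z h)).1
    have := (hz z h).1
    omega
  · obtain ⟨z, h, rfl⟩ := mem_image.1 hy
    obtain ⟨z', h', rfl⟩ := mem_image.1 hy'
    rw [inj z (mem_filter.1 h).1 z' (mem_filter.1 h').1 _ (ht z (mem_filter.1 h).1) _
      (ht z' (mem_filter.1 h').1) k]

open Classical in
theorem top_half (hP : P.Ok L) {V : ℕ → Finset (Tor 3 L)} (hc : ∀ m < P.mt, CovIn P V m)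
    {Good : Finset (Tor 3 L)} (hG : ∀ y ∉ Good, ∃ m < P.mt, y ∈ Fm P V m) {ψ : Tor 3 L → ℝ}
    {z : Tor 3 L} {r : ℕ} (hf : ∀ m < P.mt, P.η m ≤ r ∨ ∀ y ∈ Fm P V m, y ∉ bl z r)
    (top : 4 * (univ.filter fun y => ψ y ≠ 0).card ≤ (2 * r + 1) ^ 3) :
    (2 * ((bl z r).filter fun y => y ∉ Good ∨ ψ y ≠ 0).card : ℝ) ≤ (2 * (r : ℝ) + 1) ^ 3 := by
  have h1 := Ex.fm_sum hP hc z r (range P.mt) fun m hm => ⟨mem_range.1 hm, hf m (mem_range.1 hm)⟩
  have h2 : (((bl z r).filter fun y => y ∉ Good ∨ ψ y ≠ 0).card : ℝ) ≤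
      (∑ m ∈ range P.mt, (Fm P V m ∩ bl z r).card : ℕ) + (univ.filter fun y => ψ y ≠ 0).card := by
    refine Nat.cast_add (R := ℝ) _ _ ▸ Nat.cast_le.2 (le_trans (card_le_card fun y hy => ?_)
      ((card_union_le _ _).trans (Nat.add_le_add_right card_biUnion_le _)))
    obtain ⟨y1, y2⟩ := mem_filter.1 hy
    simp only [mem_union, mem_biUnion, mem_range, mem_inter, mem_filter, mem_univ, true_and]
    exact y2.imp_left fun y2 => (hG y y2).imp fun m hm => ⟨hm.1, hm.2, y1⟩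
  have h3 : ((∑ m ∈ range P.mt, (Fm P V m ∩ bl z r).card : ℕ) : ℝ) ≤
      (2 * (r : ℝ) + 1) ^ 3 / 4 := by
    push_cast
    exact (sum_le_sum fun m _ => le_mul_of_one_le_left (Nat.cast_nonneg _) (one_le_K P m)).trans h1
  have h4 := (Nat.cast_le (α := ℝ)).2 top
  push_cast at h4
  linarith

theorem cap0_clean (hP : P.Ok L) {m1 K : ℕ} (hm1 : 1 ≤ m1) (hcl : Clean P U x m1 d)
    (hw : ∀ y ∈ U P.mt, d + (2 ^ K - 1) < tdist x y) (hK : 2 * (2 ^ K - 1) < L)
    (hKη : ∀ m < m1, P.η m ≤ 2 ^ K - 1) : Cap0 P U x d nmax ((2 * (2 ^ K - 1) + 1) ^ 3)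
      (3 * 10 ^ 6 * P.K (m1 - 1) * (1 + (Nat.log 2 nmax : ℝ)) ^ 2) := by
  classical
  intro V Good S w φ ψ lam F1 hc hG w1 hwt hl p1 p2 hS hsep hn top
  have h3 := one_le_K P
  have far : ∀ z ∈ S, ∀ r m, m1 ≤ m → m < P.mt → P.η m ≤ r ∨ ∀ y ∈ Fm P V m, y ∉ bl z r :=
    fun z hz r m h1 h2 => by rw [F1 m (by omega)]; exact Ex.far hP hcl (hS z hz).2 r h1 h2
  have E0 := En_nonneg ∅ w1 φ
  have h2 := cap0 w1 φ hK x hsep hn (W := 2 * P.K (m1 - 1)) fun z hz r hr => ?_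
  · have h4 := (card_nsmul_le_sum S _ (lam / 2) fun z hz => ?_).trans h2
    · rw [nsmul_eq_mul] at h4
      refine (fin_alg (b := 0) (W := 2 * P.K (m1 - 1)) (Nat.cast_nonneg _) le_rfl hl
        (by linarith [h3 (m1 - 1)]) E0 (h4.trans (le_add_of_nonneg_right (by simp)))).trans
        (mul_le_mul_of_nonneg_right ?_ E0)
      nlinarith [mul_nonneg (zero_le_one.trans (h3 (m1 - 1))) (sq_nonneg (1 + (Nat.log 2 nmax : ℝ)))]
    have := av_le hl p1 p2 (top_half hP hc hG (z := z) (fun m hm => (lt_or_ge m m1).elim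
      (fun h => Or.inl (hKη m h)) fun h => far z hz _ m h hm) top)
    exact le_trans (by linarith [(hS z hz).1]) (le_abs_self _)
  have h1 := Ex.fm_sum hP hc z r (Ico m1 P.mt) fun m hm =>
    ⟨(mem_Ico.1 hm).2, far z hz r m (mem_Ico.1 hm).1 (mem_Ico.1 hm).2⟩
  have h2 := card_bl z r
  have h4 : ∑ y ∈ bl z r, w y ≤ ∑ y ∈ bl z r,
      (P.K (m1 - 1) + ∑ m ∈ Ico m1 P.mt, P.K m * if y ∈ Fm P V m then 1 else 0) := by
    refine sum_le_sum fun y hy => ?_
    have nn : ∀ m ∈ Ico m1 P.mt, 0 ≤ P.K m * if y ∈ Fm P V m then (1 : ℝ) else 0 := fun m _ =>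
      mul_nonneg (zero_le_one.trans (h3 m)) (by split_ifs <;> norm_num)
    have := sum_nonneg nn
    rcases hwt y (fun k => by
      have := hw y k
      have := mem_bl.1 hy
      have := (hS z hz).2
      have := tdist_triangle x z y
      omega) with e | ⟨m, m0, hm, e⟩
    · linarith [h3 (m1 - 1)]
    · rcases lt_or_ge m m1 with m2 | m2
      · linarith [K_mono P (show m ≤ m1 - 1 by omega)]
      · have := single_le_sum nn (mem_Ico.2 ⟨m2, m0⟩)
        rw [if_pos hm] at this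
        linarith [h3 (m1 - 1)]
  rw [sum_add_distrib, sum_comm, sum_const, nsmul_eq_mul] at h4
  simp only [← mul_sum, sum_boole, filter_mem_eq_inter, inter_comm (bl z r)] at h4
  push_cast at h2
  have h5 : (0 : ℝ) ≤ (2 * (r : ℝ) + 1) ^ 3 := by positivity
  nlinarith [h3 (m1 - 1)]

theorem cap0_tube (hP : P.Ok L) {N : ℕ} {z c : ℕ → Tor 3 L} {s r μ : ℕ → ℕ} {τ : ℝ}
    (H : Tube P U x d N z c s r μ τ) : Cap0 P U x d nmax ((2 * s N + 1) ^ 3)
      (10 ^ 9 * (P.K (μ 0 - 1) * (1 + (Nat.log 2 nmax : ℝ)) ^ 2 + nmax * τ ^ 2)) := by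
  classical
  intro V Good S w φ ψ lam F1 hc hG w1 hwt hl p1 p2 hS hsep hn top
  have h3 := one_le_K P
  have N1 := H.pos
  have E0 := En_nonneg ∅ w1 φ
  have hW : ∀ i < N, ∀ y ∈ bl (c i) (r i), w y ≤ P.K (μ i - 1) := fun i hi y hy => by
    obtain ⟨k1, k2⟩ := (H.miss i hi).2 y (mem_bl.1 hy)
    rcases hwt y k1 with e | ⟨m, m0, hm, e⟩
    · exact e.trans_le (h3 _)
    · refine e.trans (K_mono P (Nat.le_sub_one_of_lt (not_le.1 fun k => k2 m k m0 ?_)))
      rwa [← F1 m ((H.miss i hi).1.trans k)]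
  obtain ⟨k, hk⟩ := H.s0
  have d0 := H.d0
  have L0 := H.hL 0 N1
  have h2 := cap0 w1 φ (K := k) (by omega) x hsep hn (W := P.K (μ 0 - 1)) fun y hy ρ hρ => by
    refine (sum_le_card_nsmul _ _ _ fun y' hy' => hW 0 N1 y' (mem_bl.2 ?_)).trans ?_
    · have := tdist_triangle x y y'
      have := mem_bl.1 hy'
      have := (hS y hy).2
      rw [H.c0]; omega
    · rw [card_bl_eq y (by omega), nsmul_eq_mul]; push_cast; linarith
  have aN : av φ (z N) (s N) ≤ lam / 2 := by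
    obtain ⟨M, rfl⟩ : ∃ M, N = M + 1 := ⟨N - 1, by omega⟩
    refine av_le hl p1 p2 (top_half hP hc hG (fun m hm => (lt_or_ge m (μ M)).imp (H.top m)
      fun h y hy hy' => ((H.miss M (by omega)).2 y ?_).2 m h hm ?_) top)
    · have := tdist_triangle (c M) (z (M + 1)) y
      have := mem_bl.1 hy'
      have := (H.sub M (by omega)).2
      omega
    · rwa [← F1 m ((H.miss M (by omega)).1.trans h)]
  have h4 : ∀ y ∈ S, lam / 2 ≤ |φ y - av φ y (2 ^ k - 1)| + 11000 * τ * √(En (Jn L) ∅ w φ) := by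
    intro y hy
    have t1 := dist_le_range_sum_of_dist_le (f := fun i => av φ (if i = 0 then y else z i) (s i)) N
      (d := fun i => 11000 * √(P.K (μ i - 1) / (2 * (r i : ℝ) + 1)) * √(En (Jn L) ∅ w φ))
      fun {i} hi => by
        rw [Real.dist_eq, if_neg i.succ_ne_zero]
        refine tstep w1 φ (H.hL i hi) ?_ (H.sub i hi).2 (H.ratio i hi).1 (H.ratio i hi).2 (hW i hi)
        split_ifs with e
        · subst e
          have := (hS y hy).2
          rw [H.c0]; omega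
        · exact (H.sub i hi).1
    rw [Real.dist_eq, if_pos rfl, if_neg (by omega), ← sum_mul, ← mul_sum, hk] at t1
    have t2 := (le_abs_self _).trans (t1.trans (mul_le_mul_of_nonneg_right
      (mul_le_mul_of_nonneg_left H.cost (by norm_num)) (Real.sqrt_nonneg _)))
    linarith [le_abs_self (φ y - av φ y (2 ^ k - 1)), (hS y hy).1]
  have h5 := card_nsmul_le_sum S _ _ h4
  rw [sum_add_distrib, sum_const, nsmul_eq_mul, nsmul_eq_mul] at h5
  refine (fin_alg (N := nmax) (Nat.cast_nonneg _) (by exact_mod_cast hn) hl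
    (zero_le_one.trans (h3 _)) E0 (h5.trans (add_le_add_left h2 _))).trans
    (mul_le_mul_of_nonneg_right ?_ E0)
  nlinarith [mul_nonneg (zero_le_one.trans (h3 (μ 0 - 1))) (sq_nonneg (1 + (Nat.log 2 nmax : ℝ))),
    mul_nonneg (Nat.cast_nonneg (α := ℝ) nmax) (sq_nonneg τ)]

/-- **capacity at a clean point**. -/
theorem capH_clean (hP : P.Ok L) (hc : ∀ m, 1 ≤ m → m < P.mt → CovIn P U m) {Ar m1 K : ℕ}
    (hA : 11 * P.ρ 0 + 6 ≤ Ar ∧ Ar ≤ P.η 0) (hm1 : 1 ≤ m1) (hcl : Clean P U x m1 (d + Ar))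
    (hw : ∀ y ∈ U P.mt, d + Ar + (2 ^ K - 1) < tdist x y) (hK : 2 * (2 ^ K - 1) < L)
    (hKη : ∀ m < m1, P.η m ≤ 2 ^ K - 1) : CapH P U x d Ar nmax ((2 * (2 ^ K - 1) + 1) ^ 3)
      (16 * Ar + 2 * (3 * 10 ^ 6 * P.K (m1 - 1) * (1 + (Nat.log 2 nmax : ℝ)) ^ 2)) :=
  capH_of hP hc hA (by have := one_le_K P (m1 - 1); positivity) (cap0_clean hP hm1 hcl hw hK hKη)

/-- **capacity along a tube**. -/
theorem capH_tube (hP : P.Ok L) (hc : ∀ m, 1 ≤ m → m < P.mt → CovIn P U m) {Ar N : ℕ}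
    (hA : 11 * P.ρ 0 + 6 ≤ Ar ∧ Ar ≤ P.η 0) {z c : ℕ → Tor 3 L} {s r μ : ℕ → ℕ} {τ : ℝ}
    (H : Tube P U x (d + Ar) N z c s r μ τ) : CapH P U x d Ar nmax ((2 * s N + 1) ^ 3) (16 * Ar +
      2 * (10 ^ 9 * (P.K (μ 0 - 1) * (1 + (Nat.log 2 nmax : ℝ)) ^ 2 + nmax * τ ^ 2))) :=
  capH_of hP hc hA (by have := one_le_K P (μ 0 - 1); positivity) (cap0_tube hP H)

end Crest.Agent.N337.G1
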